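import Vale.Agent.P155.U902.Ann

/-!
# P155, block BD (B9): FAT in the annulus form
-/

namespace Vale.Agent.P155.Ann

open Finset Skel Vale.Agent.P155.T802 Vale.Agent.P155.Q1 Vale.Agent.P155.S7 Vale.Agent.P155.T730
  Vale.Agent.P155.BD Vale.Agent.P155.H904

variable {T : Temp} {V : Finset Pt} {ω : Conf} {v : Pt} {m n : ℕ}

theorem third_le (hn : 3 ≤ n) : (n : ℝ) ≤ 5 * ((n / 3 : ℕ) : ℝ) := by
  have : n ≤ 5 * (n / 3) := by omega
  exact_mod_cast this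

/-- one rectangle -/
theorem one_rect (h : FATs) {a : ℝ} (ha : 0 < a) : ∃ b c C : ℝ, 0 < b ∧ 0 < c ∧ 0 < C ∧
    ∀ (T : Temp) (R n : ℕ) (x y x0 : ℤ), 1 ≤ R → Fits T R → (R : ℝ) ^ a ≤ n → 25 ≤ n →
    (x0 = x + n + 1 ∨ x0 = x - 2 * n - 1) →
    (∀ f : Pt, |x - f.1| ≤ 4 * n → |y - f.2| ≤ 4 * n → f ∈ T.faceSet) →
    ∀ κ : ℝ, 0 < κ → 25 * κ ≤ 1 →
    Pr T.V (fun ω => ∃ v m, Strand Prod.fst Prod.snd ω x0 (x0 + n) (y - 2 * n - 1)
      (y + 2 * n + 1) v m ∧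
      (areaR x0 (x0 + n) (y - 2 * n - 1) (y + 2 * n + 1) (n / 3) ω (comp ω v) : ℝ) ≤
        κ * (n : ℝ) ^ 2) ≤ C * (25 * κ) ^ b + C * (R : ℝ) ^ (-c) := by
  obtain ⟨b, c, C, hb, hc, hC, hh⟩ := h (a / 2) (by positivity) 30
  refine ⟨b, c, C, hb, hc, hC, ?_⟩
  intro T R n x y x0 hR hfit hRn hn hx hfar κ hκ hκ1
  have hR1 : (1 : ℝ) ≤ R := by exact_mod_cast hR
  have h5 := third_le (n := n) (by omega)
  have hn25 : (25 : ℝ) ≤ n := by exact_mod_cast hn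
  have hsc : (R : ℝ) ^ (a / 2) ≤ ((n / 3 : ℕ) : ℝ) := by
    have e3 : (R : ℝ) ^ (a / 2) = Real.sqrt ((R : ℝ) ^ a) := by
      rw [Real.sqrt_eq_rpow, ← Real.rpow_mul (by positivity)]
      congr 1
      ring
    rw [e3]
    have e4 : Real.sqrt ((R : ℝ) ^ a) ≤ n / 5 := by
      rw [Real.sqrt_le_left (by positivity)]
      refine hRn.trans ?_
      nlinarith
    linarith
  refine (E.Pr_mono (fun ω _ h0 => ?_)).trans (hh T R (n / 3) x0 (x0 + n) (y - 2 * n - 1)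
    (y + 2 * n + 1) _ _ hR hfit hsc (rgeo (by omega) hx hfar) (25 * κ) (by positivity) hκ1)
  obtain ⟨v, m, hs, har⟩ := h0
  refine ⟨v, m, hs, har.trans ?_⟩
  have h6 : (n : ℝ) ^ 2 ≤ (5 * ((n / 3 : ℕ) : ℝ)) ^ 2 := pow_le_pow_left₀ (by positivity) h5 2
  calc κ * (n : ℝ) ^ 2 ≤ κ * (5 * ((n / 3 : ℕ) : ℝ)) ^ 2 := mul_le_mul_of_nonneg_left h6 hκ.le
    _ = 25 * κ * ((n / 3 : ℕ) : ℝ) ^ 2 := by ring

/-! ### transposition -/

theorem tv (x : Pt) : tr.v x = (x.2, x.1) := rfl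

theorem tf (x : Pt) : tr.f x = (x.2, x.1) := rfl

theorem fits_tr {R : ℕ} (h : Fits T R) : Fits (tr.tmap T) R := by
  intro g hg
  rw [tr.faceSet_map'] at hg
  obtain ⟨x, hx, rfl⟩ := hg
  have h2 := J.mem_box.1 (Finset.mem_coe.1 (h hx))
  rw [Finset.mem_coe, J.mem_box, tf]
  simp only at h2 ⊢
  omega

theorem strand_tr {x0 x1 q0 q1 : ℤ} (hs : Strand Prod.snd Prod.fst ω x0 x1 q0 q1 v m) :
    Strand Prod.fst Prod.snd (tr.mapC ω) x0 x1 q0 q1 (tr.v v) m where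
  loop := tr.ne_map.2 hs.loop
  qmem := fun j hj => by
    have h := hs.qmem j hj
    rw [tr.suc_iter, tv]
    exact h
  pmem := fun j h0 h1 => by
    have h := hs.pmem j h0 h1
    rw [tr.suc_iter, tv]
    exact h
  ends := by
    have h := hs.ends
    rw [tr.suc_iter, tv, tv]
    exact h

theorem cnt_tr (hω : ω ∈ DD V) {A : Set Pt} (hA : A ∈ Loops ω) (z : Pt) (r : ℕ) :
    cnt (tr.mapC ω) (tr.v '' A) (box (z.2, z.1) r) ≤ cnt ω A (box z r) := by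
  classical
  unfold cnt
  refine Finset.card_le_card_of_injOn tr.f ?_ tr.f_inj.injOn
  intro f hf
  rw [Finset.mem_coe, Finset.mem_filter, mem_box_dn] at hf
  rw [Finset.mem_coe, Finset.mem_filter, mem_box_dn]
  refine ⟨?_, ?_⟩
  · have := hf.1
    rw [dn_le_iff] at this ⊢
    rw [tf]
    exact ⟨this.2, this.1⟩
  · rw [← tr.sur V ω hω A hA, tr.ff]
    exact hf.2

/-- **B9** -/
theorem b9 (h : FATs) : BD.FATn := by
  classical
  intro a ha
  obtain ⟨b, c, C, hb, hc, hC, hh⟩ := one_rect h ha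
  set C' : ℝ := 4 * C * 25 ^ b + 4 * C + 25 ^ (c / a) + 25 ^ b with hC'
  have hC'pos : 0 < C' := by rw [hC']; positivity
  refine ⟨b, c, C', hb, hc, hC'pos.le, ?_⟩
  intro R T hR hfit z n hRn hdF κ hκ hκ1
  have hR1 : (1 : ℝ) ≤ R := by exact_mod_cast hR
  have hR0 : (0 : ℝ) < R := by linarith
  have hRc : 0 ≤ (R : ℝ) ^ (-c) := Real.rpow_nonneg hR0.le _
  have hwb : 0 ≤ κ ^ b := Real.rpow_nonneg hκ.le _
  have p1 : 0 ≤ 4 * C * 25 ^ b := by positivity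
  have p2 : 0 ≤ 4 * C := by positivity
  have p3 : (0 : ℝ) ≤ 25 ^ (c / a) := by positivity
  have p4 : (0 : ℝ) ≤ 25 ^ b := by positivity
  rcases le_or_gt (n : ℝ) 25 with hsm | hlg
  · refine (E.Pr_le_one _ _).trans ((triv ha hc hR hRn hsm).trans ?_)
    have h5 : 25 ^ (c / a) * (R : ℝ) ^ (-c) ≤ C' * (R : ℝ) ^ (-c) :=
      mul_le_mul_of_nonneg_right (by linarith) hRc
    have h6 : 0 ≤ C' * κ ^ b := mul_nonneg hC'pos.le hwb
    linarith
  rcases le_or_gt (25 * κ) 1 with hκ4 | hκ4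
  swap
  · refine (E.Pr_le_one _ _).trans ?_
    have h5 : 1 ≤ 25 ^ b * κ ^ b := by
      rw [← Real.mul_rpow (by norm_num) hκ.le]
      exact Real.one_le_rpow hκ4.le hb.le
    have h6 : 25 ^ b * κ ^ b ≤ C' * κ ^ b := mul_le_mul_of_nonneg_right (by linarith) hwb
    have h7 : 0 ≤ C' * (R : ℝ) ^ (-c) := mul_nonneg hC'pos.le hRc
    linarith
  have hn : 25 ≤ n := by
    have : (25 : ℝ) ≤ n := hlg.le
    exact_mod_cast this
  have hfar : ∀ f : Pt, |z.1 - f.1| ≤ 4 * n → |z.2 - f.2| ≤ 4 * n → f ∈ T.faceSet :=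
    fun f h1 h2 => far_box hdF (by omega) h1 h2
  have hfar' : ∀ f : Pt, |z.2 - f.1| ≤ 4 * n → |z.1 - f.2| ≤ 4 * n →
      f ∈ (tr.tmap T).faceSet := by
    intro f h1 h2
    rw [← tr.ff f, tr.faceSet_map]
    exact hfar _ h2 h1
  -- four bounds
  have B1 := hh T R n z.1 z.2 (z.1 + n + 1) hR hfit hRn hn (Or.inl rfl) hfar κ hκ hκ4
  have B2 := hh T R n z.1 z.2 (z.1 - 2 * n - 1) hR hfit hRn hn (Or.inr rfl) hfar κ hκ hκ4
  have B3 := hh (tr.tmap T) R n z.2 z.1 (z.2 + n + 1) hR (fits_tr hfit) hRn hn (Or.inl rfl)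
    hfar' κ hκ hκ4
  have B4 := hh (tr.tmap T) R n z.2 z.1 (z.2 - 2 * n - 1) hR (fits_tr hfit) hRn hn (Or.inr rfl)
    hfar' κ hκ hκ4
  rw [tr.Pr_tmap] at B3 B4
  have area : ∀ (ω : Conf) (x y x0 : ℤ) (A : Set Pt), (x0 = x + n + 1 ∨ x0 = x - 2 * n - 1) →
      areaR x0 (x0 + n) (y - 2 * n - 1) (y + 2 * n + 1) (n / 3) ω A ≤
        cnt ω A (box (x, y) (4 * n)) := by
    intro ω x y x0 A hx
    refine areaR_le (fun f h1 h2 h3 h4 => ?_)
    rw [dn_le_iff, abs_le, abs_le]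
    push_cast
    omega
  have key := (E.Pr_or_le T.V _ _).trans (add_le_add ((E.Pr_or_le T.V _ _).trans
    (add_le_add B1 B2)) ((E.Pr_or_le T.V _ _).trans (add_le_add B3 B4)))
  have hmain : Pr T.V (fun ω => ∃ L ∈ Loops ω, Thin ω L z n κ) ≤
      (C * (25 * κ) ^ b + C * (R : ℝ) ^ (-c) + (C * (25 * κ) ^ b + C * (R : ℝ) ^ (-c))) +
      (C * (25 * κ) ^ b + C * (R : ℝ) ^ (-c) + (C * (25 * κ) ^ b + C * (R : ℝ) ^ (-c))) := by
    refine le_trans (E.Pr_mono (fun ω hω hL => ?_)) key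
    obtain ⟨A, hA, ⟨x, hx, -, u0, hu0, hu0A⟩, ⟨u1, hu1A, hu1⟩, hcnt⟩ := hL
    rw [mem_box_dn] at hx hu1
    have hu0d : dn z u0 ≤ n + 1 := by
      rw [dn_le_iff, abs_le, abs_le] at hx ⊢
      simp only [corners, mem_insert, mem_singleton] at hu0
      push_cast
      rcases hu0 with rfl | rfl | rfl | rfl <;> simp only <;> omega
    obtain ⟨u, m, hu, hs⟩ := four_strands (n := n) hω hA (by omega) hu0A hu0d hu1A (by omega)
    rcases hs with hs | hs | hs | hs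
    · left; left
      refine ⟨u, m, ?_, ?_⟩
      · have e : z.1 + (n : ℤ) + 1 + n = z.1 + 2 * n + 1 := by ring
        rw [e]
        exact hs
      · rw [hu]
        refine le_trans ?_ hcnt
        exact_mod_cast area ω z.1 z.2 _ A (Or.inl rfl)
    · left; right
      refine ⟨u, m, ?_, ?_⟩
      · have e : z.1 - 2 * (n : ℤ) - 1 + n = z.1 - n - 1 := by ring
        rw [e]
        exact hs
      · rw [hu]
        refine le_trans ?_ hcnt
        exact_mod_cast area ω z.1 z.2 _ A (Or.inr rfl)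
    · right; left
      refine ⟨tr.v u, m, ?_, ?_⟩
      · have e : z.2 + (n : ℤ) + 1 + n = z.2 + 2 * n + 1 := by ring
        rw [e]
        exact strand_tr hs
      · rw [tr.comp_map, hu]
        refine le_trans ?_ hcnt
        exact_mod_cast (area (tr.mapC ω) z.2 z.1 _ (tr.v '' A) (Or.inl rfl)).trans
          (cnt_tr hω hA z (4 * n))
    · right; right
      refine ⟨tr.v u, m, ?_, ?_⟩
      · have e : z.2 - 2 * (n : ℤ) - 1 + n = z.2 - n - 1 := by ring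
        rw [e]
        exact strand_tr hs
      · rw [tr.comp_map, hu]
        refine le_trans ?_ hcnt
        exact_mod_cast (area (tr.mapC ω) z.2 z.1 _ (tr.v '' A) (Or.inr rfl)).trans
          (cnt_tr hω hA z (4 * n))
  refine hmain.trans ?_
  rw [Real.mul_rpow (by norm_num) hκ.le]
  have m5 : 0 ≤ (4 * C + 25 ^ (c / a) + 25 ^ b) * κ ^ b := by positivity
  have m6 : 0 ≤ (4 * C * 25 ^ b + 25 ^ (c / a) + 25 ^ b) * (R : ℝ) ^ (-c) := by positivity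
  rw [hC']
  nlinarith

end Vale.Agent.P155.Ann
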