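import Vale.Agent.P155.U902.Bot
import Vale.Agent.P155.S7.Strands
import Vale.Agent.P155.T730.Inst

/-!
# P155, TIGHT (S7): FAT for all strands, from the upper half and the reflection
-/

namespace Vale.Agent.P155.Ann

open Finset Skel Vale.Agent.P155.T802 Vale.Agent.P155.Q1 Vale.Agent.P155.S7 Vale.Agent.P155.T730

variable {T : Temp} {V : Finset Pt} {ω : Conf} {x0 x1 q0 q1 : ℤ} {v : Pt} {m : ℕ}

/-! ### rates -/

/-- for bounded `n` the error term is trivial -/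
theorem triv {a0 c N0 : ℝ} (ha0 : 0 < a0) (hc : 0 < c) {R n : ℕ} (hR : 1 ≤ R)
    (hRn : (R : ℝ) ^ a0 ≤ n) (hn : (n : ℝ) ≤ N0) : 1 ≤ N0 ^ (c / a0) * (R : ℝ) ^ (-c) := by
  have hR0 : (0 : ℝ) < R := by
    have : (1 : ℝ) ≤ R := by exact_mod_cast hR
    linarith
  have h1 : (R : ℝ) ^ c ≤ N0 ^ (c / a0) := by
    have h2 : (R : ℝ) ^ c = ((R : ℝ) ^ a0) ^ (c / a0) := by
      rw [← Real.rpow_mul hR0.le]
      congr 1
      field_simp
    rw [h2]
    exact Real.rpow_le_rpow (Real.rpow_nonneg hR0.le _) (hRn.trans hn) (by positivity)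
  have h3 : (R : ℝ) ^ c * (R : ℝ) ^ (-c) = 1 := by
    rw [← Real.rpow_add hR0, add_neg_cancel, Real.rpow_zero]
  calc (1 : ℝ) = (R : ℝ) ^ c * (R : ℝ) ^ (-c) := h3.symm
    _ ≤ N0 ^ (c / a0) * (R : ℝ) ^ (-c) :=
      mul_le_mul_of_nonneg_right h1 (Real.rpow_nonneg hR0.le _)

theorem R_mono {R : ℕ} (hR : 1 ≤ R) {c c' : ℝ} (h : c ≤ c') :
    (R : ℝ) ^ (-c') ≤ (R : ℝ) ^ (-c) :=
  Real.rpow_le_rpow_of_exponent_le (by exact_mod_cast hR) (by linarith)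

theorem w_mono {w b b' : ℝ} (hw : 0 < w) (hw1 : w ≤ 1) (h : b ≤ b') : w ^ b' ≤ w ^ b :=
  Real.rpow_le_rpow_of_exponent_ge hw hw1 h

/-! ### the reflection -/

theorem rv (x : Pt) : rfl0.v x = (x.1, - x.2) := rfl

theorem rf (x : Pt) : rfl0.f x = (x.1, - x.2 - 1) := rfl

theorem fits_refl {R : ℕ} (h : Fits T R) : Fits (rfl0.tmap T) (R + 1) := by
  intro g hg
  rw [rfl0.faceSet_map'] at hg
  obtain ⟨x, hx, rfl⟩ := hg
  have h2 := J.mem_box.1 (Finset.mem_coe.1 (h hx))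
  rw [Finset.mem_coe, J.mem_box, rf]
  simp only at h2 ⊢
  push_cast
  omega

theorem strand_refl (hs : Strand Prod.fst Prod.snd ω x0 x1 q0 q1 v m) :
    Strand Prod.fst Prod.snd (rfl0.mapC ω) x0 x1 (-q1) (-q0) (rfl0.v v) m where
  loop := rfl0.ne_map.2 hs.loop
  qmem := fun j hj => by
    have h := hs.qmem j hj
    rw [rfl0.suc_iter, rv]
    simp only at h ⊢
    omega
  pmem := fun j h0 h1 => by
    have h := hs.pmem j h0 h1
    rw [rfl0.suc_iter, rv]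
    exact h
  ends := by
    have h := hs.ends
    rw [rfl0.suc_iter, rv, rv]
    exact h

theorem inner_refl (ω : Conf) (v : Pt) (m : ℕ) :
    inner (rfl0.mapC ω) (rfl0.v v) m = rfl0.v '' inner ω v m := by
  ext u
  constructor
  · rintro ⟨j, h0, h1, rfl⟩
    rw [rfl0.suc_iter]
    exact ⟨_, ⟨j, h0, h1, rfl⟩, rfl⟩
  · rintro ⟨_, ⟨j, h0, h1, rfl⟩, rfl⟩
    exact ⟨j, h0, h1, (rfl0.suc_iter ω v j).symm⟩

theorem hedge_refl (ω : Conf) (K : Set Pt) (x y : ℤ) :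
    hedge (rfl0.mapC ω) (rfl0.v '' K) x y ↔ hedge ω K x (-y) := by
  have h1 : ∀ m : Pt → Pt, rfl0.mapM m (x, y) = (x + 1, y) ↔ m (x, -y) = (x + 1, -y) := by
    intro mm
    show rfl0.v (mm (rfl0.v (x, y))) = (x + 1, y) ↔ _
    rw [rv, rv]
    simp only [Prod.ext_iff]
    constructor
    · rintro ⟨a, b⟩
      exact ⟨a, by omega⟩
    · rintro ⟨a, b⟩
      exact ⟨a, by omega⟩
  have h3 : (rfl0.mapC ω).1 = rfl0.mapM ω.1 := rfl
  have h4 : (rfl0.mapC ω).2 = rfl0.mapM ω.2 := rfl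
  unfold hedge
  rw [h3, h4, h1, h1]
  have h5 : ∀ u : Pt, u ∈ rfl0.v '' K ↔ (u.1, - u.2) ∈ K := fun u => rf_mem K u
  rw [h5, h5]

/-- the loop of a strand which does not surround the upper side surrounds the lower side: this is
the upper side after reflection -/
theorem surr_refl (hω : ω ∈ DD V) {n : ℕ} (hx : x0 + 2 ≤ x1) (hq : q0 ≤ q1)
    (hs : Strand Prod.fst Prod.snd ω x0 x1 q0 q1 v m)
    (hn : ¬ surr ω (comp ω v) (x0, topS Prod.fst Prod.snd ω v m x0)) :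
    surr (rfl0.mapC ω) (comp (rfl0.mapC ω) (rfl0.v v))
      (x0, topS Prod.fst Prod.snd (rfl0.mapC ω) (rfl0.v v) m x0) := by
  classical
  set Q := capOf x0 x1 q0 q1 n hx hq with hQ
  set Q' := capOf x0 x1 (-q1) (-q0) n hx (by omega) with hQ'
  have hω' : rfl0.mapC ω ∈ DD (V.image rfl0.v) := rfl0.mem_DD_map.2 hω
  have hs' := strand_refl hs
  have g : Q.Good V ω (inner ω v m) :=
    st_good hω (show q0 ≤ q0 from le_rfl) (show q1 ≤ q1 from le_rfl) hs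
  have g' : Q'.Good (V.image rfl0.v) (rfl0.mapC ω) (inner (rfl0.mapC ω) (rfl0.v v) m) :=
    st_good hω' (show -q1 ≤ -q1 from le_rfl) (show -q0 ≤ -q0 from le_rfl) hs'
  have hL : comp ω v ∈ Loops ω := comp_mem_loops hs
  rw [st_top (Q := Q) hω hs] at hn
  rw [st_top (Q := Q') hω' hs']
  have hxx : Q.x0 ≤ x0 := le_rfl
  have hxx1 : x0 < Q.x1 := by
    show x0 < x1
    omega
  have hu : SW.suc ω v ∈ inner ω v m := by
    have := st_two (Q := Q) hω hs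
    exact ⟨1, by omega, by omega, rfl⟩
  have hd : surr ω (comp ω v) (x0, botE ω (inner ω v m) x0 - 1) := by
    by_contra hcon
    exact up_or_down hω g hL hu (iter_comp ω v 1) hxx hxx1 hxx hxx1
      (iff_of_false hn hcon)
  have ht := g'.topE_spec hω' (x := x0) le_rfl hxx1
  have hb := botE_spec hω g hxx hxx1
  rw [inner_refl] at ht ⊢
  set t := topE (rfl0.mapC ω) (rfl0.v '' inner ω v m) x0 with htd
  set b := botE ω (inner ω v m) x0 with hbd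
  have e : t = -b := by
    have h1 := (hedge_refl ω (inner ω v m) x0 t).1 ht.1
    have h2 := hb.2 _ h1
    have h3 := ht.2 (-b) ((hedge_refl ω (inner ω v m) x0 (-b)).2 (by rw [neg_neg]; exact hb.1))
    omega
  have e2 : (x0, t) = rfl0.f (x0, b - 1) := by
    rw [rf, e]
    simp only [Prod.mk.injEq, true_and]
    ring
  rw [e2, rfl0.comp_map, rfl0.sur V ω hω _ hL]
  exact hd

/-- the areas -/
theorem area_refl (hω : ω ∈ DD V) {A : Set Pt} (hA : A ∈ Loops ω) {n n' : ℕ} (hn : n' ≤ n) :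
    areaR x0 x1 (-q1) (-q0) n' (rfl0.mapC ω) (rfl0.v '' A) ≤ areaR x0 x1 q0 q1 n ω A := by
  unfold areaR
  refine Set.ncard_le_ncard_of_injOn rfl0.f ?_ (rfl0.f_inj.injOn) ?_
  · rintro f ⟨⟨h1, h2, h3, h4⟩, h5⟩
    refine ⟨⟨?_, ?_, ?_, ?_⟩, ?_⟩
    · rw [rf]
      exact h1
    · rw [rf]
      exact h2
    · rw [rf]
      simp only
      omega
    · rw [rf]
      simp only
      omega
    · rw [← rfl0.sur V ω hω A hA, rfl0.ff]
      exact h5
  · refine Set.Finite.subset (Finset.finite_toSet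
      (Finset.Ico x0 x1 ×ˢ Finset.Ico (q0 - 3 * n) (q1 + 3 * n))) ?_
    rintro f ⟨h1, _⟩
    rw [Finset.mem_coe, Finset.mem_product, Finset.mem_Ico, Finset.mem_Ico]
    tauto

theorem rgeo_refl {mL mR : ℤ} {A n : ℕ} (g : RGeo T x0 x1 q0 q1 mL mR A n) (hn : 2 ≤ n) :
    RGeo (rfl0.tmap T) x0 x1 (-q1) (-q0) mL mR (2 * A) (n - 1) where
  n1 := by omega
  l := by have := g.l; omega
  m := by have := g.m; omega
  r := by have := g.r; omega
  q := by have := g.q; omega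
  wid := by
    have := g.wid
    have h1 : (n : ℤ) ≤ 2 * ((n - 1 : ℕ) : ℤ) := by omega
    have h2 : (A : ℤ) * n ≤ A * (2 * ((n - 1 : ℕ) : ℤ)) :=
      mul_le_mul_of_nonneg_left h1 (Int.natCast_nonneg A)
    push_cast at h2 ⊢
    linarith
  hgt := by
    have := g.hgt
    have h1 : (n : ℤ) ≤ 2 * ((n - 1 : ℕ) : ℤ) := by omega
    have h2 : (A : ℤ) * n ≤ A * (2 * ((n - 1 : ℕ) : ℤ)) :=
      mul_le_mul_of_nonneg_left h1 (Int.natCast_nonneg A)
    push_cast at h2 ⊢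
    linarith
  far := by
    intro f h1 h2 h3 h4
    rw [← rfl0.ff f]
    rw [rfl0.faceSet_map]
    refine g.far _ ?_ ?_ ?_ ?_ <;> rw [rf] <;> simp only <;> omega

/-- **FAT for all strands** -/
theorem fats (h : FATup) : FATs := by
  intro a0 ha0 A
  obtain ⟨b1, c1, C1, hb1, hc1, hC1, h1⟩ := h a0 ha0 A
  obtain ⟨b2, c2, C2, hb2, hc2, hC2, h2⟩ := h (a0 / 2) (by positivity) (2 * A)
  set N0 : ℝ := 4 * 2 ^ a0 with hN0
  have h2a : (1 : ℝ) ≤ 2 ^ a0 := Real.one_le_rpow (by norm_num) ha0.le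
  have hN04 : 4 ≤ N0 := by rw [hN0]; linarith
  set b := min b1 b2 with hb
  set c := min c1 c2 with hc
  have hbpos : 0 < b := lt_min hb1 hb2
  have hcpos : 0 < c := lt_min hc1 hc2
  set C : ℝ := C1 + C2 * 4 ^ b2 + C2 + N0 ^ (c / a0) + 4 ^ b with hC
  have hCpos : 0 < C := by rw [hC]; positivity
  refine ⟨b, c, C, hbpos, hcpos, hCpos, ?_⟩
  intro T R n x0 x1 q0 q1 mL mR hR hfit hRn g w hw hw1
  have hR1 : (1 : ℝ) ≤ R := by exact_mod_cast hR
  have hR0 : (0 : ℝ) < R := by linarith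
  have hRc : 0 ≤ (R : ℝ) ^ (-c) := Real.rpow_nonneg hR0.le _
  have hwb : 0 ≤ w ^ b := Real.rpow_nonneg hw.le _
  have p1 : 0 ≤ C1 := hC1.le
  have p2 : 0 ≤ C2 * 4 ^ b2 := by positivity
  have p3 : 0 ≤ C2 := hC2.le
  have p4 : 0 ≤ N0 ^ (c / a0) := by positivity
  have p5 : (0 : ℝ) ≤ 4 ^ b := by positivity
  rcases le_or_gt (n : ℝ) N0 with hsm | hlg
  · refine (E.Pr_le_one _ _).trans ((triv ha0 hcpos hR hRn hsm).trans ?_)
    have h5 : N0 ^ (c / a0) * (R : ℝ) ^ (-c) ≤ C * (R : ℝ) ^ (-c) :=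
      mul_le_mul_of_nonneg_right (by linarith) hRc
    have h6 : 0 ≤ C * w ^ b := mul_nonneg hCpos.le hwb
    linarith
  rcases le_or_gt w (1 / 4) with hw4 | hw4
  swap
  · refine (E.Pr_le_one _ _).trans ?_
    have h5 : 1 ≤ 4 ^ b * w ^ b := by
      rw [← Real.mul_rpow (by norm_num) hw.le]
      exact Real.one_le_rpow (by linarith) hbpos.le
    have h6 : 4 ^ b * w ^ b ≤ C * w ^ b := mul_le_mul_of_nonneg_right (by linarith) hwb
    have h7 : 0 ≤ C * (R : ℝ) ^ (-c) := mul_nonneg hCpos.le hRc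
    linarith
  have hn2 : 4 ≤ n := by
    have : (4 : ℝ) ≤ n := hN04.trans hlg.le
    exact_mod_cast this
  -- the scale of the reflected rectangle
  have hscale : ((R + 1 : ℕ) : ℝ) ^ (a0 / 2) ≤ ((n - 1 : ℕ) : ℝ) := by
    have e1 : ((R + 1 : ℕ) : ℝ) ≤ 2 * R := by push_cast; linarith
    have e2 : ((R + 1 : ℕ) : ℝ) ^ (a0 / 2) ≤ (2 * R) ^ (a0 / 2) :=
      Real.rpow_le_rpow (by positivity) e1 (by positivity)
    have e3 : (2 * (R : ℝ)) ^ (a0 / 2) = Real.sqrt ((2 * R) ^ a0) := by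
      rw [Real.sqrt_eq_rpow, ← Real.rpow_mul (by positivity)]
      congr 1
      ring
    have e4 : (2 * (R : ℝ)) ^ a0 ≤ (n / 2 : ℝ) ^ 2 := by
      rw [Real.mul_rpow (by norm_num) hR0.le]
      have e5 : (2 : ℝ) ^ a0 * (R : ℝ) ^ a0 ≤ 2 ^ a0 * n :=
        mul_le_mul_of_nonneg_left hRn (by positivity)
      have e6 : (2 : ℝ) ^ a0 * 4 ≤ n := by rw [hN0] at hlg; linarith
      have hn0 : (0 : ℝ) ≤ n := by positivity
      nlinarith [mul_le_mul_of_nonneg_right e6 hn0]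
    have e7 : Real.sqrt ((2 * (R : ℝ)) ^ a0) ≤ n / 2 := by
      rw [Real.sqrt_le_left (by positivity)]
      exact e4
    have e8 : ((n - 1 : ℕ) : ℝ) = n - 1 := by
      rw [Nat.cast_sub (by omega)]
      norm_num
    have e9 : (4 : ℝ) ≤ n := by exact_mod_cast hn2
    rw [e8]
    rw [e3] at e2
    linarith
  have hup := h1 T R n x0 x1 q0 q1 mL mR hR hfit hRn g w hw hw1
  have hdn := h2 (rfl0.tmap T) (R + 1) (n - 1) x0 x1 (-q1) (-q0) mL mR (by omega) (fits_refl hfit)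
    hscale (rgeo_refl g (by omega)) (4 * w) (by linarith) (by linarith)
  rw [rfl0.Pr_tmap] at hdn
  have hdn' : Pr T.V (fun ω => ∃ v m, Strand Prod.fst Prod.snd ω x0 x1 q0 q1 v m ∧
      ¬ surr ω (comp ω v) (x0, topS Prod.fst Prod.snd ω v m x0) ∧
      (areaR x0 x1 q0 q1 n ω (comp ω v) : ℝ) ≤ w * (n : ℝ) ^ 2) ≤
      C2 * (4 * w) ^ b2 + C2 * ((R + 1 : ℕ) : ℝ) ^ (-c2) := by
    refine le_trans (E.Pr_mono (fun ω hω hh => ?_)) hdn
    obtain ⟨v, m, hs, hns, har⟩ := hh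
    refine ⟨rfl0.v v, m, strand_refl hs, surr_refl (n := n) hω g.two g.q hs hns, ?_⟩
    rw [rfl0.comp_map]
    have h5 : (areaR x0 x1 (-q1) (-q0) (n - 1) (rfl0.mapC ω) (rfl0.v '' comp ω v) : ℝ) ≤
        areaR x0 x1 q0 q1 n ω (comp ω v) := by
      exact_mod_cast area_refl hω (comp_mem_loops hs) (by omega)
    refine h5.trans (har.trans ?_)
    have e8 : ((n - 1 : ℕ) : ℝ) = n - 1 := by
      rw [Nat.cast_sub (by omega)]
      norm_num
    have e9 : (4 : ℝ) ≤ n := by exact_mod_cast hn2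
    rw [e8, show 4 * w * ((n : ℝ) - 1) ^ 2 = w * (2 * ((n : ℝ) - 1)) ^ 2 by ring]
    refine mul_le_mul_of_nonneg_left ?_ hw.le
    exact pow_le_pow_left₀ (by positivity) (by linarith) 2
  have hor : Pr T.V (fun ω => ∃ v m, Strand Prod.fst Prod.snd ω x0 x1 q0 q1 v m ∧
      (areaR x0 x1 q0 q1 n ω (comp ω v) : ℝ) ≤ w * (n : ℝ) ^ 2) ≤
      (C1 * w ^ b1 + C1 * (R : ℝ) ^ (-c1)) +
      (C2 * (4 * w) ^ b2 + C2 * ((R + 1 : ℕ) : ℝ) ^ (-c2)) := by
    refine le_trans (E.Pr_mono (fun ω _ hh => ?_)) ((E.Pr_or_le T.V _ _).trans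
      (add_le_add hup hdn'))
    obtain ⟨v, m, hs, har⟩ := hh
    by_cases hsu : surr ω (comp ω v) (x0, topS Prod.fst Prod.snd ω v m x0)
    · exact Or.inl ⟨v, m, hs, hsu, har⟩
    · exact Or.inr ⟨v, m, hs, hsu, har⟩
  refine hor.trans ?_
  have k1 : w ^ b1 ≤ w ^ b := w_mono hw hw1 (min_le_left _ _)
  have k2 : w ^ b2 ≤ w ^ b := w_mono hw hw1 (min_le_right _ _)
  have k3 : (R : ℝ) ^ (-c1) ≤ (R : ℝ) ^ (-c) := R_mono hR (min_le_left _ _)
  have k4 : ((R + 1 : ℕ) : ℝ) ^ (-c2) ≤ (R : ℝ) ^ (-c) := by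
    refine le_trans ?_ (R_mono hR (min_le_right c1 c2))
    exact Real.rpow_le_rpow_of_nonpos hR0 (by push_cast; linarith) (by linarith)
  rw [Real.mul_rpow (by norm_num) hw.le]
  have m1 := mul_le_mul_of_nonneg_left k1 p1
  have m2 := mul_le_mul_of_nonneg_left k2 p2
  have m3 := mul_le_mul_of_nonneg_left k3 p1
  have m4 := mul_le_mul_of_nonneg_left k4 p3
  have m5 : 0 ≤ (C2 + N0 ^ (c / a0) + 4 ^ b) * w ^ b := by positivity
  have m6 : 0 ≤ (C2 * 4 ^ b2 + N0 ^ (c / a0) + 4 ^ b) * (R : ℝ) ^ (-c) := by positivity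
  rw [hC]
  nlinarith

end Vale.Agent.P155.Ann
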