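import Vale.Agent.P155.U902.TL2

/-!
# P155, literal Q1, block TL: dominated convergence for sums over lattice columns
-/

namespace Vale.Agent.P155.TLb

open Set Filter Topology MeasureTheory

theorem step_meas (g : ℤ → ℝ) (pA δ : ℝ) : Measurable fun x : ℝ => |g ⌊(x - pA) / δ⌋| := by
  have h1 : Measurable fun n : ℤ => |g n| := measurable_from_top
  have h2 : Measurable fun x : ℝ => ⌊(x - pA) / δ⌋ :=
    Int.measurable_floor.comp (by fun_prop)
  exact h1.comp h2

theorem floor_of_mem {pA δ x : ℝ} (hδ : 0 < δ) {X : ℤ}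
    (hx : x ∈ Ico (pA + δ * X) (pA + δ * (X + 1))) : ⌊(x - pA) / δ⌋ = X := by
  rw [Int.floor_eq_iff, le_div_iff₀ hδ, div_lt_iff₀ hδ]
  constructor <;> linarith [hx.1, hx.2]

theorem cell_int (g : ℤ → ℝ) {pA δ : ℝ} (hδ : 0 < δ) (X : ℤ) :
    ∫ x in Ico (pA + δ * X) (pA + δ * (X + 1)), |g ⌊(x - pA) / δ⌋| = δ * |g X| := by
  rw [setIntegral_congr_fun measurableSet_Ico (g := fun _ => |g X|)
    (fun x hx => by simp only [floor_of_mem hδ hx])]
  rw [setIntegral_const, Measure.real, Real.volume_Ico, ENNReal.toReal_ofReal (by linarith)]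
  rw [smul_eq_mul]
  ring

theorem sum_le_int (g : ℤ → ℝ) {pA δ u v C : ℝ} (hδ : 0 < δ) (hC : 0 ≤ C)
    (hb : ∀ X : ℤ, u - δ ≤ pA + δ * X → pA + δ * X ≤ v → |g X| ≤ C) :
    δ * ∑ X ∈ Finset.Ico ⌊(u - pA) / δ⌋ ⌊(v - pA) / δ⌋, |g X| ≤
      δ * C + ∫ x in Ioo u v, |g ⌊(x - pA) / δ⌋| := by
  classical
  set S : ℝ → ℝ := fun x => |g ⌊(x - pA) / δ⌋| with hS
  have hSm : Measurable S := step_meas g pA δ
  have hSb : ∀ x ∈ Ioo u v, ‖S x‖ ≤ C := by
    intro x hx
    have h1 := lp_le (pA := pA) (r := x) hδ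
    have h2 := lt_lp (pA := pA) (r := x) hδ
    rw [Real.norm_eq_abs, abs_abs]
    exact hb _ (by linarith [hx.1]) (by linarith [hx.2])
  have hSi : IntegrableOn S (Ioo u v) := by
    refine Measure.integrableOn_of_bounded (M := C) ?_ hSm.aestronglyMeasurable ?_
    · rw [Real.volume_Ioo]
      exact ENNReal.ofReal_ne_top
    · exact (ae_restrict_iff' measurableSet_Ioo).2 (Eventually.of_forall hSb)
  set m := ⌊(u - pA) / δ⌋ with hm
  set n := ⌊(v - pA) / δ⌋ with hn
  set I : ℤ → Set ℝ := fun X => Ico (pA + δ * X) (pA + δ * (X + 1)) ∩ Ioo u v with hI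
  have hterm : ∀ X ∈ Finset.Ico m n, δ * |g X| ≤ (∫ x in I X, S x) + if X = m then δ * C else 0 := by
    intro X hX
    rw [Finset.mem_Ico] at hX
    have hnn : 0 ≤ ∫ x in I X, S x := setIntegral_nonneg (measurableSet_Ico.inter measurableSet_Ioo)
      (fun x _ => abs_nonneg _)
    have hXv : pA + δ * X + δ ≤ v := by
      have h1 : X + 1 ≤ n := hX.2
      rw [hn, le_lp hδ] at h1
      push_cast at h1
      linarith
    by_cases hXm : X = m
    · rw [if_pos hXm]
      have h1 := lt_lp (pA := pA) (r := u) hδ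
      have h2 := hb X (by rw [hXm]; exact h1.le) (by linarith)
      have h3 := mul_le_mul_of_nonneg_left h2 hδ.le
      linarith
    · rw [if_neg hXm, add_zero]
      have h1 : m < X := lt_of_le_of_ne hX.1 (Ne.symm hXm)
      rw [hm, lp_lt hδ] at h1
      have h2 : I X = Ico (pA + δ * X) (pA + δ * (X + 1)) := by
        refine inter_eq_left.2 fun x hx => ⟨by linarith [hx.1], ?_⟩
        have := hx.2
        linarith
      rw [h2]
      exact (cell_int g hδ X).symm.le
  have hsum : ∑ X ∈ Finset.Ico m n, ∫ x in I X, S x ≤ ∫ x in Ioo u v, S x := by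
    rw [← integral_biUnion_finset]
    · refine setIntegral_mono_set hSi ?_ ?_
      · exact Eventually.of_forall fun x => abs_nonneg _
      · refine LE.le.eventuallyLE ?_
        exact iUnion₂_subset fun X _ => inter_subset_right
    · intro X _
      exact measurableSet_Ico.inter measurableSet_Ioo
    · intro X _ Y _ hXY
      rw [Function.onFun, Set.disjoint_left]
      intro x hx hy
      exact hXY ((floor_of_mem hδ hx.1).symm.trans (floor_of_mem hδ hy.1))
    · intro X _
      exact hSi.mono_set inter_subset_right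
  have hone : ∑ X ∈ Finset.Ico m n, (if X = m then δ * C else 0) ≤ δ * C := by
    rw [Finset.sum_ite_eq']
    have : 0 ≤ δ * C := mul_nonneg hδ.le hC
    split_ifs
    · exact le_rfl
    · exact this
  rw [Finset.mul_sum]
  refine (Finset.sum_le_sum hterm).trans ?_
  rw [Finset.sum_add_distrib]
  linarith

/-- dominated convergence for sums over lattice columns -/
theorem dct {δ pA : ℕ → ℝ} (hδ : ∀ j, 0 < δ j) (hδ0 : Tendsto δ atTop (𝓝 0)) {u v C : ℝ}
    (hC : 0 ≤ C) {G : ℕ → ℤ → ℝ}
    (hb : ∀ᶠ j in atTop, ∀ X : ℤ, u - δ j ≤ pA j + δ j * X → pA j + δ j * X ≤ v → |G j X| ≤ C)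
    (hc : ∀ᵐ x : ℝ, u < x → x < v → Tendsto (fun j => G j ⌊(x - pA j) / δ j⌋) atTop (𝓝 0)) :
    Tendsto (fun j => δ j * ∑ X ∈ Finset.Ico ⌊(u - pA j) / δ j⌋ ⌊(v - pA j) / δ j⌋, |G j X|)
      atTop (𝓝 0) := by
  have hint : Tendsto (fun j => ∫ x in Ioo u v, |G j ⌊(x - pA j) / δ j⌋|) atTop (𝓝 0) := by
    have h0 : (∫ x in Ioo u v, (fun _ : ℝ => (0 : ℝ)) x) = 0 := integral_zero _ _
    rw [← h0]
    refine tendsto_integral_filter_of_dominated_convergence (fun _ => C) ?_ ?_ ?_ ?_
    · exact Eventually.of_forall fun j => (step_meas (G j) (pA j) (δ j)).aestronglyMeasurable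
    · filter_upwards [hb] with j hj
      refine (ae_restrict_iff' measurableSet_Ioo).2 (Eventually.of_forall fun x hx => ?_)
      have h1 := lp_le (pA := pA j) (r := x) (hδ j)
      have h2 := lt_lp (pA := pA j) (r := x) (hδ j)
      rw [Real.norm_eq_abs, abs_abs]
      exact hj _ (by linarith [hx.1]) (by linarith [hx.2])
    · refine integrableOn_const ?_
      rw [Real.volume_Ioo]
      exact ENNReal.ofReal_ne_top
    · refine (ae_restrict_iff' measurableSet_Ioo).2 ?_
      filter_upwards [hc] with x hx hxm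
      have := (hx hxm.1 hxm.2).abs
      rw [abs_zero] at this
      exact this
  have hup : Tendsto (fun j => δ j * C + ∫ x in Ioo u v, |G j ⌊(x - pA j) / δ j⌋|) atTop
      (𝓝 0) := by
    have := (hδ0.mul_const C).add hint
    rw [zero_mul, zero_add] at this
    exact this
  refine tendsto_of_tendsto_of_tendsto_of_le_of_le' tendsto_const_nhds hup ?_ ?_
  · exact Eventually.of_forall fun j => mul_nonneg (hδ j).le
      (Finset.sum_nonneg fun X _ => abs_nonneg _)
  · filter_upwards [hb] with j hj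
    exact sum_le_int (G j) (hδ j) hC hj

end Vale.Agent.P155.TLb
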