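import Vale.Agent.P155.U902.TL6
import Vale.Agent.P155.U902.Dct

/-!
# P155, literal Q1, block TL, part 7: assembly
-/

namespace Vale.Agent.P155.TLb

open Set Filter Topology MeasureTheory Vale.Agent.P155 Vale.Agent.P155.Q1

theorem two {d : Dir} {K : ℝ → ℂ} {a b : ℝ} {r0 r0' r1' r1 s0 s1 : ℝ} {τ : ℝ → ℝ}
    (hPK : Continuous fun u => d.P (K u)) (h0 : r0 < r0') (h1 : r1' < r1)
    (h : One d K a b r0 r0' r1' r1 s0 s1 τ)
    (δ : ℕ → ℝ) (A : ℕ → ℂ) (hδ : ∀ j, 0 < δ j) (hδ0 : Tendsto δ atTop (𝓝 0))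
    {y g s t θ y' g' s' t' θ'} (F : Follow K a b δ A y g s t θ)
    (F' : Follow K a b δ A y' g' s' t' θ') {α : ℝ} (hα : 0 < α) :
    ∀ᶠ j in atTop, ∃ l m l' m',
      StrandY d.p d.q (y j) (d.lp (δ j) (A j) r0) (d.lp (δ j) (A j) r1) (d.lq (δ j) (A j) s0)
        (d.lq (δ j) (A j) s1) l m ∧ s ≤ θ j l ∧ θ j (l + m) ≤ t ∧
      StrandY d.p d.q (y' j) (d.lp (δ j) (A j) r0) (d.lp (δ j) (A j) r1) (d.lq (δ j) (A j) s0)
        (d.lq (δ j) (A j) s1) l' m' ∧ s' ≤ θ' j l' ∧ θ' j (l' + m') ≤ t' ∧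
      (δ j) ^ 2 * ∑ X ∈ Finset.Ico (d.lp (δ j) (A j) r0') (d.lp (δ j) (A j) r1'),
        |(topY d.p d.q (y j) l m X : ℝ) - topY d.p d.q (y' j) l' m' X| < α := by
  obtain ⟨l, m, hev, hlim⟩ := h δ A hδ hδ0 y g s t θ F
  obtain ⟨l', m', hev', hlim'⟩ := h δ A hδ hδ0 y' g' s' t' θ' F'
  set G : ℕ → ℤ → ℝ := fun j X => δ j * topY d.p d.q (y j) (l j) (m j) X -
    δ j * topY d.p d.q (y' j) (l' j) (m' j) X with hG
  have hsmall : ∀ c : ℝ, 0 < c → ∀ᶠ j in atTop, δ j < c := fun c hc =>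
    (tendsto_order.1 hδ0).2 c hc
  have hbd : ∀ᶠ j in atTop, ∀ X : ℤ, r0' - δ j ≤ d.P (A j) + δ j * X →
      d.P (A j) + δ j * X ≤ r1' → |G j X| ≤ |s1 - s0| + 1 := by
    filter_upwards [hev, hev', hsmall (r0' - r0) (by linarith), hsmall (r1 - r1') (by linarith),
      hsmall 1 one_pos] with j e1 e2 d1 d2 d3 X hX0 hX1
    have hj := hδ j
    have k1 : d.lp (δ j) (A j) r0 ≤ X := by
      by_contra hcon
      push Not at hcon
      have h2 : X + 1 ≤ ⌊(r0 - d.P (A j)) / δ j⌋ := hcon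
      rw [le_lp hj] at h2
      push_cast at h2
      linarith
    have k2 : X < d.lp (δ j) (A j) r1 := by
      have h2 : X + 1 ≤ ⌊(r1 - d.P (A j)) / δ j⌋ := by
        rw [le_lp hj]
        push_cast
        linarith
      exact h2
    obtain ⟨a1, a2⟩ := e1.2.2.2 X k1 k2
    obtain ⟨b1, b2⟩ := e2.2.2.2 X k1 k2
    have c1 := lattice_le (pA := d.Q (A j)) hj a1
    have c2 := lattice_le (pA := d.Q (A j)) hj a2
    have c3 := lattice_le (pA := d.Q (A j)) hj b1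
    have c4 := lattice_le (pA := d.Q (A j)) hj b2
    have c5 : s0 - δ j < d.Q (A j) + δ j * d.lq (δ j) (A j) s0 := lt_lp hj
    have c6 : d.Q (A j) + δ j * d.lq (δ j) (A j) s1 ≤ s1 := lp_le hj
    have c7 := le_abs_self (s1 - s0)
    simp only [hG]
    rw [abs_le]
    constructor <;> linarith
  have hae : ∀ᵐ x : ℝ, r0' < x → x < r1' →
      Tendsto (fun j => G j ⌊(x - d.P (A j)) / δ j⌋) atTop (𝓝 0) := by
    have hreg : ∀ᵐ x : ℝ, Reg (fun u => d.P (K u)) x := by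
      rw [ae_iff]
      exact (countable_not_reg hPK).measure_zero _
    filter_upwards [hreg] with x hx hx0 hx1
    have := (hlim x hx0 hx1 hx).sub (hlim' x hx0 hx1 hx)
    rw [sub_self] at this
    refine this.congr fun j => ?_
    simp only [hG]
    ring
  have hfin := dct hδ hδ0 (add_nonneg (abs_nonneg _) zero_le_one) hbd hae
  filter_upwards [hev, hev', (tendsto_order.1 hfin).2 α hα] with j e1 e2 e3
  refine ⟨l j, m j, l' j, m' j, e1.1, e1.2.1, e1.2.2.1, e2.1, e2.2.1, e2.2.2.1, ?_⟩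
  have hj := hδ j
  refine lt_of_eq_of_lt ?_ e3
  rw [pow_two, mul_assoc, Finset.mul_sum]
  congr 1
  refine Finset.sum_congr rfl fun X _ => ?_
  simp only [hG]
  rw [← mul_sub, abs_mul, abs_of_pos hj]

theorem follow_flip {K : ℝ → ℂ} {a b : ℝ} {δ : ℕ → ℝ} {A : ℕ → ℂ} {y : ℕ → ℤ → Pt} {g : ℝ → ℝ}
    {s t : ℝ} {θ : ℕ → ℝ → ℝ} (F : Follow K a b δ A y g s t θ) :
    Follow (fun x => K (a + b - x)) a b δ A y (fun x => a + b - g x) s t θ where
  adj := F.adj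
  st := F.st
  gc := continuous_const.sub F.gc
  gmem := fun x hx => by
    have := F.gmem x hx
    exact ⟨by linarith [this.2], by linarith [this.1]⟩
  gends := by
    rcases F.gends with ⟨h1, h2⟩ | ⟨h1, h2⟩
    · right
      simp only [h1, h2]
      constructor <;> ring
    · left
      simp only [h1, h2]
      constructor <;> ring
  cont := F.cont
  mono := F.mono
  surj := F.surj
  close := fun ε hε => by
    filter_upwards [F.close ε hε] with j hj x hx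
    have h2 : a + b - (a + b - g (θ j x)) = g (θ j x) := by ring
    rw [h2]
    exact hj x hx

theorem tl_lt {d : Dir} (hd : DirOK d) {K : ℝ → ℂ} {a b : ℝ} (hab : a < b) (hK : Continuous K)
    (hlt : d.P (K a) < d.P (K b)) {s0 s1 : ℚ}
    (hs : ∀ x ∈ Set.Icc a b, (s0 : ℝ) < d.Q (K x) ∧ d.Q (K x) < s1) :
    ∃ r0 r0' r1' r1 : ℚ, r0 < r0' ∧ r0' < r1' ∧ r1' < r1 ∧
    d.P (K a) < r0 ∧ (r1 : ℝ) < d.P (K b) ∧
    ∀ (δ : ℕ → ℝ) (A : ℕ → ℂ), (∀ j, 0 < δ j) → Tendsto δ atTop (𝓝 0) →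
    ∀ y g s t θ y' g' s' t' θ', Follow K a b δ A y g s t θ → Follow K a b δ A y' g' s' t' θ' →
    ∀ α : ℝ, 0 < α → ∀ᶠ j in atTop, ∃ l m l' m',
      StrandY d.p d.q (y j) (d.lp (δ j) (A j) r0) (d.lp (δ j) (A j) r1) (d.lq (δ j) (A j) s0)
        (d.lq (δ j) (A j) s1) l m ∧ s ≤ θ j l ∧ θ j (l + m) ≤ t ∧
      StrandY d.p d.q (y' j) (d.lp (δ j) (A j) r0) (d.lp (δ j) (A j) r1) (d.lq (δ j) (A j) s0)
        (d.lq (δ j) (A j) s1) l' m' ∧ s' ≤ θ' j l' ∧ θ' j (l' + m') ≤ t' ∧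
      (δ j) ^ 2 * ∑ X ∈ Finset.Ico (d.lp (δ j) (A j) r0') (d.lp (δ j) (A j) r1'),
        |(topY d.p d.q (y j) l m X : ℝ) - topY d.p d.q (y' j) l' m' X| < α := by
  have hPK : Continuous fun u => d.P (K u) := hd.Pc.comp hK
  obtain ⟨r0, r0', r1', r1, h0, h1, α', α, β, β', W⟩ := exists_win hPK hab hlt
  have k0 : r0 < r0' := by exact_mod_cast W.l0
  have k1 : r0' < r1' := by exact_mod_cast W.l1
  have k2 : r1' < r1 := by exact_mod_cast W.l2
  refine ⟨r0, r0', r1', r1, k0, k1, k2, h0, h1, ?_⟩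
  intro δ A hδ hδ0 y g s t θ y' g' s' t' θ' F F' η hη
  exact two hPK W.l0 W.l2 (one_of_oneUp (oneUp hd hK h0 h1 hab.le W hs)) δ A hδ hδ0 F F' hη

/-- **TL** -/
theorem tl : TL := by
  intro d hd K a b hab hK hne s0 s1 hs
  have hd' := dirOK hd
  rcases lt_or_gt_of_ne hne with hlt | hlt
  · obtain ⟨r0, r0', r1', r1, k0, k1, k2, h0, h1, h⟩ := tl_lt hd' hab hK hlt hs
    refine ⟨r0, r0', r1', r1, k0, k1, k2, ?_, ?_, h⟩
    · rw [min_eq_left hlt.le]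
      exact h0
    · rw [max_eq_right hlt.le]
      exact h1
  · have e1 : a + b - a = b := by ring
    have e2 : a + b - b = a := by ring
    obtain ⟨r0, r0', r1', r1, k0, k1, k2, h0, h1, h⟩ := tl_lt (K := fun x => K (a + b - x)) hd' hab
      (hK.comp (by fun_prop)) (by rw [e1, e2]; exact hlt) (s0 := s0) (s1 := s1)
      (fun x hx => hs _ ⟨by linarith [hx.2], by linarith [hx.1]⟩)
    rw [e1] at h0
    rw [e2] at h1
    refine ⟨r0, r0', r1', r1, k0, k1, k2, ?_, ?_, ?_⟩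
    · rw [min_eq_right hlt.le]
      exact h0
    · rw [max_eq_left hlt.le]
      exact h1
    · intro δ A hδ hδ0 y g s t θ y' g' s' t' θ' F F' η hη
      exact h δ A hδ hδ0 y _ s t θ y' _ s' t' θ' (follow_flip F) (follow_flip F') η hη

end Vale.Agent.P155.TLb
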