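import Vale.Agent.P155.K.Supp

/-!
# P155: extended continuous mapping theorem with tight side conditions

As `K.ecmt`, but the convergence `Φ n (ω n) → Φ x` is only required along sequences of
configurations which satisfy a countable family of conditions, each of which is tight.
-/

namespace Vale.Agent.P155.U902

open MeasureTheory Filter Topology Vale.Agent.P155.K

theorem avg_add {ι : Type*} (D : Finset ι) (f g : ι → ℝ) :
    avg D (fun i => f i + g i) = avg D f + avg D g := by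
  unfold avg
  rw [Finset.sum_add_distrib, smul_add]

/-- One choice of the levels of the conditions: all but a fraction `η`. -/
theorem ecmt_eta {ι E Θ : Type*} [DecidableEq ι] [PseudoMetricSpace E] [MeasurableSpace Θ]
    (P : Measure Θ) [IsProbabilityMeasure P] {D D' : ℕ → Finset ι} {Y : ℕ → ι → E} {Z : Θ → E}
    (hZ : ∀ F : E → ℝ, Continuous F → AEStronglyMeasurable (fun x => F (Z x)) P)
    (hLIM : ∀ F : E → ℝ, Continuous F → (∃ C, ∀ y, |F y| ≤ C) →
      Tendsto (fun n => avg (D n) (fun i => F (Y n i))) atTop (𝓝 (∫ x, F (Z x) ∂P)))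
    {Φn : ℕ → ι → ℝ} {Φ : Θ → ℝ} {M η : ℝ} (hM0 : 0 < M)
    (hM : ∀ n, ∀ i ∈ D n, |Φn n i| ≤ M) (hsub : ∀ n, D' n ⊆ D n)
    (hbad : ∀ᶠ n in atTop, avg (D n) (fun i => if i ∈ D' n then (0 : ℝ) else 1) ≤ η)
    (hlim : ∀ᵐ x ∂P, ∀ (n : ℕ → ℕ) (ω : ℕ → ι), Tendsto n atTop atTop →
      (∀ j, ω j ∈ D' (n j)) → Tendsto (fun j => Y (n j) (ω j)) atTop (𝓝 (Z x)) →
      Tendsto (fun j => Φn (n j) (ω j)) atTop (𝓝 (Φ x))) :
    ∃ W L : Θ → ℝ, AEStronglyMeasurable W P ∧ AEStronglyMeasurable L P ∧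
      Integrable W P ∧ Integrable L P ∧
      (∀ᵐ x ∂P, (IsLim D' Y (Z x) ∧ W x = Φ x ∧ L x = - Φ x ∧ |Φ x| ≤ M) ∨
        (¬ IsLim D' Y (Z x) ∧ W x = - M ∧ L x = - M)) ∧
      (∀ ε > 0, ∀ᶠ n in atTop, avg (D n) (Φn n) < (∫ x, W x ∂P) + 2 * M * η + ε) ∧
      (∀ ε > 0, ∀ᶠ n in atTop, - (∫ x, L x ∂P) - 2 * M * η - ε < avg (D n) (Φn n)) := by
  have hM1 : ∀ n, ∀ i ∈ D' n, |Φn n i| ≤ M := fun n i hi => hM n i (hsub n hi)
  have hM2 : ∀ n, ∀ i ∈ D' n, |(fun n i => - Φn n i) n i| ≤ M := fun n i hi => by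
    simpa using hM1 n i hi
  set W : ℕ → Θ → ℝ := fun m x => env D' Y Φn M m (Z x) with hW
  set L : ℕ → Θ → ℝ := fun m x => env D' Y (fun n i => - Φn n i) M m (Z x) with hL
  have hWlim : ∀ᵐ x ∂P, (IsLim D' Y (Z x) ∧ Tendsto (fun m => W m x) atTop (𝓝 (Φ x)) ∧
      Tendsto (fun m => L m x) atTop (𝓝 (-Φ x)) ∧ |Φ x| ≤ M) ∨
      (¬ IsLim D' Y (Z x) ∧ Tendsto (fun m => W m x) atTop (𝓝 (-M)) ∧
      Tendsto (fun m => L m x) atTop (𝓝 (-M))) := by
    filter_upwards [hlim] with x hx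
    by_cases h : IsLim D' Y (Z x)
    · left
      refine ⟨h, env_tendsto_of_lim hM0.le hM1 h hx, ?_, ?_⟩
      · apply env_tendsto_of_lim hM0.le hM2 h
        intro n ω hn hω hY
        exact (hx n ω hn hω hY).neg
      · obtain ⟨n, ω, hn, hω, hY⟩ := h
        exact le_of_tendsto (hx n ω hn hω hY).abs (Eventually.of_forall fun j => hM1 _ _ (hω j))
    · right
      exact ⟨h, env_tendsto_of_not hM0.le hM1 h, env_tendsto_of_not hM0.le hM2 h⟩
  have mW : ∀ m, AEStronglyMeasurable (W m) P := fun m => hZ _ (env_cont hM0.le hM1 m)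
  have mL : ∀ m, AEStronglyMeasurable (L m) P := fun m => hZ _ (env_cont hM0.le hM2 m)
  classical
  set Winf : Θ → ℝ := fun x => if IsLim D' Y (Z x) then Φ x else -M with hWinf
  set Linf : Θ → ℝ := fun x => if IsLim D' Y (Z x) then -Φ x else -M with hLinf
  have cW : ∀ᵐ x ∂P, Tendsto (fun m => W m x) atTop (𝓝 (Winf x)) := by
    filter_upwards [hWlim] with x hx
    rcases hx with ⟨h, h1, _⟩ | ⟨h, h1, _⟩
    · simpa only [hWinf, h, if_true] using h1
    · simpa only [hWinf, h, if_false] using h1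
  have cL : ∀ᵐ x ∂P, Tendsto (fun m => L m x) atTop (𝓝 (Linf x)) := by
    filter_upwards [hWlim] with x hx
    rcases hx with ⟨h, _, h1, _⟩ | ⟨h, _, h1⟩
    · simpa only [hLinf, h, if_true] using h1
    · simpa only [hLinf, h, if_false] using h1
  have mWinf : AEStronglyMeasurable Winf P := aestronglyMeasurable_of_tendsto_ae atTop mW cW
  have mLinf : AEStronglyMeasurable Linf P := aestronglyMeasurable_of_tendsto_ae atTop mL cL
  have bW : ∀ m x, ‖W m x‖ ≤ M := fun m x => abs_env_le hM0.le hM1 m _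
  have bL : ∀ m x, ‖L m x‖ ≤ M := fun m x => abs_env_le hM0.le hM2 m _
  have iW : Tendsto (fun m => ∫ x, W m x ∂P) atTop (𝓝 (∫ x, Winf x ∂P)) :=
    tendsto_integral_of_dominated_convergence (fun _ => M) mW (integrable_const _)
      (fun m => Eventually.of_forall (bW m)) cW
  have iL : Tendsto (fun m => ∫ x, L m x ∂P) atTop (𝓝 (∫ x, Linf x ∂P)) :=
    tendsto_integral_of_dominated_convergence (fun _ => M) mL (integrable_const _)
      (fun m => Eventually.of_forall (bL m)) cL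
  have intW : Integrable Winf P := by
    refine Integrable.of_bound mWinf M ?_
    filter_upwards [cW] with x hx
    exact le_of_tendsto hx.norm (Eventually.of_forall (fun m => bW m x))
  have intL : Integrable Linf P := by
    refine Integrable.of_bound mLinf M ?_
    filter_upwards [cL] with x hx
    exact le_of_tendsto hx.norm (Eventually.of_forall (fun m => bL m x))
  -- the general upper bound
  have gen : ∀ (Ψ : ℕ → ι → ℝ) (hΨ : ∀ n, ∀ i ∈ D n, |Ψ n i| ≤ M) (V : Θ → ℝ),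
      Tendsto (fun m => ∫ x, env D' Y Ψ M m (Z x) ∂P) atTop (𝓝 (∫ x, V x ∂P)) →
      ∀ ε > 0, ∀ᶠ n in atTop, avg (D n) (Ψ n) < (∫ x, V x ∂P) + 2 * M * η + ε := by
    intro Ψ hΨ V hV ε hε
    have hΨ1 : ∀ n, ∀ i ∈ D' n, |Ψ n i| ≤ M := fun n i hi => hΨ n i (hsub n hi)
    obtain ⟨m, hm⟩ := ((tendsto_order.1 hV).2 ((∫ x, V x ∂P) + ε / 2) (by linarith)).exists
    have h1 := hLIM (env D' Y Ψ M m) (env_cont hM0.le hΨ1 m) ⟨M, abs_env_le hM0.le hΨ1 m⟩
    have h2 := (tendsto_order.1 h1).2 ((∫ x, V x ∂P) + ε) (by linarith)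
    filter_upwards [h2, eventually_ge_atTop m, hbad] with n hn hnm hb
    have h3 : avg (D n) (Ψ n) ≤ avg (D n) (fun i => env D' Y Ψ M m (Y n i) +
        2 * M * (if i ∈ D' n then (0 : ℝ) else 1)) := by
      apply avg_mono
      intro i hi
      by_cases hi' : i ∈ D' n
      · rw [if_pos hi', mul_zero, add_zero]
        have h3 : Ψ n i - m * dist (Y n i) (Y n i) ≤ env D' Y Ψ M m (Y n i) :=
          le_env hM0.le hΨ1 (Or.inr ⟨n, hnm, i, hi', rfl⟩)
        simpa using h3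
      · rw [if_neg hi', mul_one]
        have h4 := (abs_le.1 (hΨ n i hi)).2
        have h5 := neg_le_env (D := D') (Y := Y) hM0.le hΨ1 m (Y n i)
        linarith
    rw [avg_add] at h3
    have h4 : avg (D n) (fun i => 2 * M * (if i ∈ D' n then (0 : ℝ) else 1)) =
        2 * M * avg (D n) (fun i => if i ∈ D' n then (0 : ℝ) else 1) := by
      unfold avg
      rw [← Finset.mul_sum, smul_eq_mul, smul_eq_mul]
      ring
    rw [h4] at h3
    have h5 : 2 * M * avg (D n) (fun i => if i ∈ D' n then (0 : ℝ) else 1) ≤ 2 * M * η :=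
      mul_le_mul_of_nonneg_left hb (by linarith)
    linarith
  refine ⟨Winf, Linf, mWinf, mLinf, intW, intL, ?_, gen Φn hM Winf iW, ?_⟩
  · filter_upwards [hWlim] with x hx
    rcases hx with ⟨h, _, _, h3⟩ | ⟨h, _, _⟩
    · left
      refine ⟨h, ?_, ?_, h3⟩
      · simp only [hWinf, h, if_true]
      · simp only [hLinf, h, if_true]
    · right
      refine ⟨h, ?_, ?_⟩
      · simp only [hWinf, h, if_false]
      · simp only [hLinf, h, if_false]
  · intro ε hε
    have h1 := gen (fun n i => - Φn n i) (fun n i hi => by simpa using hM n i hi) Linf iL ε hε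
    filter_upwards [h1] with n hn
    rw [avg_neg] at hn
    linarith

open Classical in
/-- the indicator of the failure of a condition -/
noncomputable def fails (p : Prop) : ℝ := if p then 0 else 1

theorem fails_of {p : Prop} (h : p) : fails p = 0 := by
  unfold fails
  rw [if_pos h]

theorem fails_not {p : Prop} (h : ¬ p) : fails p = 1 := by
  unfold fails
  rw [if_neg h]

theorem fails_nonneg (p : Prop) : 0 ≤ fails p := by
  by_cases h : p
  · rw [fails_of h]
  · rw [fails_not h]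
    norm_num

/-- The subsets of configurations satisfying the first conditions. -/
theorem exists_good {ι : Type*} {D : ℕ → Finset ι} {Cd : ℕ → ℕ → ℕ → ι → Prop}
    (hC : ∀ i, ∀ ε > 0, ∃ c, ∀ᶠ n in atTop,
      avg (D n) (fun a => fails (Cd i c n a)) ≤ ε)
    {η : ℝ} (hη : 0 < η) :
    ∃ (c : ℕ → ℕ) (N : ℕ → ℕ), (∀ i, i ≤ N i) ∧
      ∀ n, avg (D n) (fun a => fails (∀ i, N i ≤ n → Cd i (c i) n a)) ≤ η := by
  classical
  have h1 : ∀ i : ℕ, ∃ c N : ℕ, i ≤ N ∧ ∀ n, N ≤ n →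
      avg (D n) (fun a => fails (Cd i c n a)) ≤ η / 2 / 2 ^ i := by
    intro i
    obtain ⟨c, hc⟩ := hC i (η / 2 / 2 ^ i) (by positivity)
    obtain ⟨N, hN⟩ := eventually_atTop.1 hc
    refine ⟨c, max N i, le_max_right _ _, fun n hn => ?_⟩
    have h2 := hN n ((le_max_left _ _).trans hn)
    exact h2
  choose c N hN hcN using h1
  refine ⟨c, N, hN, fun n => ?_⟩
  have h2 : ∀ a, fails (∀ i, N i ≤ n → Cd i (c i) n a) ≤
      ∑ i ∈ (Finset.range (n + 1)).filter (fun i => N i ≤ n),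
        fails (Cd i (c i) n a) := by
    intro a
    by_cases h : ∀ i, N i ≤ n → Cd i (c i) n a
    · rw [fails_of h]
      exact Finset.sum_nonneg fun i _ => fails_nonneg _
    · rw [fails_not h]
      push Not at h
      obtain ⟨i, hi, hic⟩ := h
      have hmem : i ∈ (Finset.range (n + 1)).filter (fun i => N i ≤ n) := by
        rw [Finset.mem_filter, Finset.mem_range]
        exact ⟨by have := hN i; omega, hi⟩
      calc (1 : ℝ) = fails (Cd i (c i) n a) := by rw [fails_not hic]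
        _ ≤ _ := Finset.single_le_sum (f := fun i => fails (Cd i (c i) n a))
          (fun j _ => fails_nonneg _) hmem
  have h3 : avg (D n) (fun a => ∑ i ∈ (Finset.range (n + 1)).filter (fun i => N i ≤ n),
        fails (Cd i (c i) n a)) =
      ∑ i ∈ (Finset.range (n + 1)).filter (fun i => N i ≤ n),
        avg (D n) (fun a => fails (Cd i (c i) n a)) := by
    unfold avg
    rw [Finset.sum_comm, Finset.smul_sum]
  have h4 : avg (D n) (fun a => fails (∀ i, N i ≤ n → Cd i (c i) n a)) ≤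
      ∑ i ∈ (Finset.range (n + 1)).filter (fun i => N i ≤ n), η / 2 / 2 ^ i := by
    refine (avg_mono _ fun a _ => h2 a).trans ?_
    rw [h3]
    apply Finset.sum_le_sum
    intro i hi
    exact hcN i n (Finset.mem_filter.1 hi).2
  have h5 : ∑ i ∈ (Finset.range (n + 1)).filter (fun i => N i ≤ n), η / 2 / 2 ^ i ≤ η := by
    have h6 : Summable (fun i : ℕ => η / 2 / 2 ^ i) := by
      have := summable_geometric_two' η
      simpa using this
    calc ∑ i ∈ (Finset.range (n + 1)).filter (fun i => N i ≤ n), η / 2 / 2 ^ i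
        ≤ ∑' i : ℕ, η / 2 / 2 ^ i := h6.sum_le_tsum _ fun i _ => by positivity
      _ = η := by simpa using tsum_geometric_two' η
  exact h4.trans h5

/-- **(Q-a) PASS.** Extended continuous mapping theorem with tight side conditions. -/
theorem pass {ι E Θ : Type*} [PseudoMetricSpace E] [MeasurableSpace Θ] (P : Measure Θ)
    [IsProbabilityMeasure P] {D : ℕ → Finset ι} {Y : ℕ → ι → E} {Z : Θ → E}
    (hZ : ∀ F : E → ℝ, Continuous F → AEStronglyMeasurable (fun x => F (Z x)) P)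
    (hLIM : ∀ F : E → ℝ, Continuous F → (∃ C, ∀ y, |F y| ≤ C) →
      Tendsto (fun n => avg (D n) (fun i => F (Y n i))) atTop (𝓝 (∫ x, F (Z x) ∂P)))
    {Cd : ℕ → ℕ → ℕ → ι → Prop}
    (hC : ∀ i, ∀ ε > 0, ∃ c, ∀ᶠ n in atTop,
      avg (D n) (fun a => fails (Cd i c n a)) ≤ ε)
    {Φn : ℕ → ι → ℝ} {Φ : Θ → ℝ} {M : ℝ} (hM : ∀ n, ∀ i ∈ D n, |Φn n i| ≤ M)
    (hlim : ∀ᵐ x ∂P, ∀ (n : ℕ → ℕ) (ω : ℕ → ι), Tendsto n atTop atTop →
      (∀ j, ω j ∈ D (n j)) → (∀ i, ∃ c, ∀ᶠ j in atTop, Cd i c (n j) (ω j)) →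
      Tendsto (fun j => Y (n j) (ω j)) atTop (𝓝 (Z x)) →
      Tendsto (fun j => Φn (n j) (ω j)) atTop (𝓝 (Φ x))) :
    AEStronglyMeasurable Φ P ∧ Tendsto (fun n => avg (D n) (Φn n)) atTop (𝓝 (∫ x, Φ x ∂P)) ∧
      ∀ᵐ x ∂P, ∃ (n : ℕ → ℕ) (ω : ℕ → ι), Tendsto n atTop atTop ∧ (∀ j, ω j ∈ D (n j)) ∧
        (∀ i, ∃ c, ∀ᶠ j in atTop, Cd i c (n j) (ω j)) ∧
        Tendsto (fun j => Y (n j) (ω j)) atTop (𝓝 (Z x)) := by
  classical
  set M' := |M| + 1 with hM'
  have hM'pos : 0 < M' := by positivity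
  have hM1 : ∀ n, ∀ i ∈ D n, |Φn n i| ≤ M' := fun n i hi =>
    (hM n i hi).trans ((le_abs_self M).trans (by linarith))
  -- the good sets
  choose c N hN hbad using fun m : ℕ => exists_good hC (η := (1 / 2 : ℝ) ^ m) (by positivity)
  set D' : ℕ → ℕ → Finset ι := fun m n =>
    (D n).filter (fun a => ∀ i, N m i ≤ n → Cd i (c m i) n a) with hD'
  have hcond : ∀ m (n : ℕ → ℕ) (ω : ℕ → ι), Tendsto n atTop atTop → (∀ j, ω j ∈ D' m (n j)) →
      (∀ j, ω j ∈ D (n j)) ∧ ∀ i, ∃ c, ∀ᶠ j in atTop, Cd i c (n j) (ω j) := by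
    intro m n ω hn hω
    refine ⟨fun j => (Finset.mem_filter.1 (hω j)).1, fun i => ⟨c m i, ?_⟩⟩
    filter_upwards [hn.eventually_ge_atTop (N m i)] with j hj
    exact (Finset.mem_filter.1 (hω j)).2 i hj
  have hex : ∀ m : ℕ, ∃ W L : Θ → ℝ, AEStronglyMeasurable W P ∧ AEStronglyMeasurable L P ∧
      Integrable W P ∧ Integrable L P ∧
      (∀ᵐ x ∂P, (IsLim (D' m) Y (Z x) ∧ W x = Φ x ∧ L x = - Φ x ∧ |Φ x| ≤ M') ∨
        (¬ IsLim (D' m) Y (Z x) ∧ W x = - M' ∧ L x = - M')) ∧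
      (∀ ε > 0, ∀ᶠ n in atTop, avg (D n) (Φn n) <
        (∫ x, W x ∂P) + 2 * M' * (1 / 2 : ℝ) ^ m + ε) ∧
      (∀ ε > 0, ∀ᶠ n in atTop, - (∫ x, L x ∂P) - 2 * M' * (1 / 2 : ℝ) ^ m - ε <
        avg (D n) (Φn n)) := by
    intro m
    apply ecmt_eta P hZ hLIM hM'pos hM1 (fun n => Finset.filter_subset _ _)
    · filter_upwards with n
      refine le_trans (le_of_eq ?_) (hbad m n)
      unfold avg
      congr 1
      apply Finset.sum_congr rfl
      intro a ha
      have e : a ∈ D' m n ↔ (∀ i, N m i ≤ n → Cd i (c m i) n a) := by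
        simp only [hD', Finset.mem_filter]
        exact ⟨fun h => h.2, fun h => ⟨ha, h⟩⟩
      show (if a ∈ D' m n then (0 : ℝ) else 1) = fails (∀ i, N m i ≤ n → Cd i (c m i) n a)
      by_cases h : ∀ i, N m i ≤ n → Cd i (c m i) n a
      · rw [if_pos (e.2 h), fails_of h]
      · rw [if_neg (fun h' => h (e.1 h')), fails_not h]
    · filter_upwards [hlim] with x hx
      intro n ω hn hω hY
      obtain ⟨h1, h2⟩ := hcond m n ω hn hω
      exact hx n ω hn h1 h2 hY
  choose W L mW mL iW iL hWL hup hlow using hex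
  -- the exceptional sets are small
  set S : ℕ → Set Θ := fun m => {x | W m x + L m x ≠ 0} with hS
  have hnonpos : ∀ m, ∀ᵐ x ∂P, W m x + L m x = -(2 * M') * (S m).indicator (fun _ => (1 : ℝ)) x := by
    intro m
    filter_upwards [hWL m] with x hx
    rcases hx with ⟨_, h1, h2, _⟩ | ⟨_, h1, h2⟩
    · have : W m x + L m x = 0 := by rw [h1, h2]; ring
      have hx' : x ∉ S m := fun h : W m x + L m x ≠ 0 => h this
      rw [this, Set.indicator_of_notMem hx', mul_zero]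
    · have h3 : W m x + L m x = -(2 * M') := by rw [h1, h2]; ring
      rw [Set.indicator_of_mem, mul_one, h3]
      show W m x + L m x ≠ 0
      rw [h3]
      linarith
  have hSm : ∀ m, NullMeasurableSet (S m) P := by
    intro m
    have h1 : AEMeasurable (fun x => W m x + L m x) P := (mW m).aemeasurable.add (mL m).aemeasurable
    exact (h1.nullMeasurable (measurableSet_singleton (0 : ℝ)).compl)
  have hSP : ∀ m, P.real (S m) ≤ 2 * (1 / 2 : ℝ) ^ m := by
    intro m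
    have h1 : ∫ x, (W m x + L m x) ∂P = -(2 * M') * P.real (S m) := by
      rw [integral_congr_ae (hnonpos m), integral_const_mul, integral_indicator₀ (hSm m)]
      simp
    rw [integral_add (iW m) (iL m)] at h1
    by_contra hcon
    push Not at hcon
    have h2 : (∫ x, W m x ∂P) + ∫ x, L m x ∂P < -(4 * M' * (1 / 2 : ℝ) ^ m) := by
      rw [h1]
      nlinarith
    set ε := (-(4 * M' * (1 / 2 : ℝ) ^ m) - ((∫ x, W m x ∂P) + ∫ x, L m x ∂P)) / 2 with hε
    obtain ⟨n, h3, h4⟩ := ((hup m ε (by linarith)).and (hlow m ε (by linarith))).exists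
    linarith
  -- Borel-Cantelli
  have hBC : ∀ᵐ x ∂P, ∀ᶠ m in atTop, x ∉ S m := by
    apply ae_eventually_notMem
    have h1 : ∀ m, P (S m) ≤ ENNReal.ofReal (2 * (1 / 2 : ℝ) ^ m) := by
      intro m
      rw [← ENNReal.ofReal_toReal (measure_ne_top P (S m))]
      exact ENNReal.ofReal_le_ofReal (hSP m)
    have h2 : Summable (fun m : ℕ => 2 * (1 / 2 : ℝ) ^ m) := summable_geometric_two.mul_left 2
    exact ne_top_of_le_ne_top h2.tsum_ofReal_ne_top (ENNReal.tsum_le_tsum h1)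
  have hall : ∀ᵐ x ∂P, ∀ m, (IsLim (D' m) Y (Z x) ∧ W m x = Φ x ∧ L m x = - Φ x ∧ |Φ x| ≤ M') ∨
        (¬ IsLim (D' m) Y (Z x) ∧ W m x = - M' ∧ L m x = - M') := ae_all_iff.2 hWL
  have hconv : ∀ᵐ x ∂P, Tendsto (fun m => W m x) atTop (𝓝 (Φ x)) := by
    filter_upwards [hBC, hall] with x h1 h2
    apply tendsto_const_nhds.congr'
    filter_upwards [h1] with m hm
    rcases h2 m with ⟨_, h3, _, _⟩ | ⟨_, h3, h4⟩
    · exact h3.symm
    · exfalso
      apply hm
      show W m x + L m x ≠ 0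
      rw [h3, h4]
      linarith
  have mΦ : AEStronglyMeasurable Φ P := aestronglyMeasurable_of_tendsto_ae atTop mW hconv
  have hlimex : ∀ᵐ x ∂P, ∃ m, IsLim (D' m) Y (Z x) ∧ |Φ x| ≤ M' := by
    filter_upwards [hBC, hall] with x h1 h2
    obtain ⟨m, hm⟩ := h1.exists
    rcases h2 m with ⟨h3, _, _, h4⟩ | ⟨_, h3, h4⟩
    · exact ⟨m, h3, h4⟩
    · exfalso
      apply hm
      show W m x + L m x ≠ 0
      rw [h3, h4]
      linarith
  have iΦ : Integrable Φ P := by
    refine Integrable.of_bound mΦ M' ?_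
    filter_upwards [hlimex] with x hx
    obtain ⟨m, _, h⟩ := hx
    exact h
  have hWle : ∀ m, ∫ x, W m x ∂P ≤ ∫ x, Φ x ∂P := by
    intro m
    apply integral_mono_ae (iW m) iΦ
    filter_upwards [hWL m, hlimex] with x h1 h2
    obtain ⟨m', _, h3⟩ := h2
    rcases h1 with ⟨_, h4, _, _⟩ | ⟨_, h4, _⟩
    · exact h4.le
    · rw [h4]
      exact (abs_le.1 h3).1
  have hLle : ∀ m, ∫ x, L m x ∂P ≤ - ∫ x, Φ x ∂P := by
    intro m
    rw [← integral_neg]
    apply integral_mono_ae (iL m) iΦ.neg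
    filter_upwards [hWL m, hlimex] with x h1 h2
    obtain ⟨m', _, h3⟩ := h2
    rcases h1 with ⟨_, _, h4, _⟩ | ⟨_, _, h4⟩
    · exact h4.le
    · rw [h4]
      show -M' ≤ - Φ x
      have := (abs_le.1 h3).2
      linarith
  have hpow : Tendsto (fun m : ℕ => 2 * M' * (1 / 2 : ℝ) ^ m) atTop (𝓝 0) := by
    have := (tendsto_pow_atTop_nhds_zero_of_lt_one (show (0 : ℝ) ≤ 1 / 2 by norm_num)
      (by norm_num)).const_mul (2 * M')
    simpa using this
  refine ⟨mΦ, ?_, ?_⟩
  · rw [tendsto_order]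
    constructor
    · intro a ha
      obtain ⟨m, hm⟩ := ((tendsto_order.1 hpow).2 (((∫ x, Φ x ∂P) - a) / 2) (by linarith)).exists
      filter_upwards [hlow m (((∫ x, Φ x ∂P) - a) / 2) (by linarith)] with n hn
      have := hLle m
      linarith
    · intro a ha
      obtain ⟨m, hm⟩ := ((tendsto_order.1 hpow).2 ((a - ∫ x, Φ x ∂P) / 2) (by linarith)).exists
      filter_upwards [hup m ((a - ∫ x, Φ x ∂P) / 2) (by linarith)] with n hn
      have := hWle m
      linarith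
  · filter_upwards [hlimex] with x hx
    obtain ⟨m, ⟨n, ω, hn, hω, hY⟩, _⟩ := hx
    obtain ⟨h1, h2⟩ := hcond m n ω hn hω
    exact ⟨n, ω, hn, h1, h2, hY⟩

end Vale.Agent.P155.U902
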