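import Vale.Agent.P155.U902.Fats
import Vale.Agent.P155.N924.Pair

/-!
# P155, block BD (B9): a loop crossing an annulus contains a crossing strand
-/

namespace Vale.Agent.P155.Ann

open Finset Skel Vale.Agent.P155.T802 Vale.Agent.P155.Q1 Vale.Agent.P155.S7 Vale.Agent.P155.T730
  Vale.Agent.P155.BD Vale.Agent.P155.H904

variable {T : Temp} {V : Finset Pt} {ω : Conf} {v : Pt} {m n : ℕ}

/-- last time below the level `c` -/
theorem last_nat {s : ℕ → ℤ} (hs : ∀ i, |s (i + 1) - s i| ≤ 1) {c : ℤ} {N : ℕ} (h0 : s 0 ≤ c)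
    (hN : c < s N) : ∃ l < N, s l = c ∧ ∀ i, l < i → i ≤ N → c < s i := by
  classical
  set l := Nat.findGreatest (fun i => s i ≤ c) N with hl
  have h1 : s l ≤ c := Nat.findGreatest_spec (P := fun i => s i ≤ c) (Nat.zero_le N) h0
  have h2 : l ≤ N := Nat.findGreatest_le N
  have h3 : ∀ i, l < i → i ≤ N → c < s i := fun i hi hiN =>
    not_le.1 (Nat.findGreatest_is_greatest hi hiN)
  have hlN : l < N := by
    rcases h2.lt_or_eq with h | h
    · exact h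
    · rw [h] at h1
      omega
  refine ⟨l, hlN, ?_, h3⟩
  have h4 := h3 (l + 1) (by omega) (by omega)
  have h5 := hs l
  rw [abs_le] at h5
  omega

/-- The strand in the positive direction of the coordinate `p`. -/
theorem strand_pos {p q : Pt → ℤ} (hω : ω ∈ DD V) (hv : v ∈ V) (hne : ω.1 v ≠ ω.2 v)
    (hp : ∀ u w : Pt, Adj u w → |p w - p u| ≤ 1) {N : ℕ} {p0 p1 q0 q1 : ℤ} (h0 : p v ≤ p0)
    (h01 : p0 < p1) (h1 : p ((SW.suc ω)^[N] v) = p1) (hlt : ∀ i < N, p ((SW.suc ω)^[i] v) < p1)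
    (hq : ∀ i ≤ N, q0 ≤ q ((SW.suc ω)^[i] v) ∧ q ((SW.suc ω)^[i] v) ≤ q1) :
    ∃ u m, comp ω u = comp ω v ∧ Strand p q ω p0 p1 q0 q1 u m := by
  obtain ⟨l, hlN, hl, hgt⟩ := last_nat (s := fun i => p ((SW.suc ω)^[i] v))
    (fun i => hp _ _ (iter_adj hω hv i)) (c := p0) (N := N) h0 (by rw [h1]; exact h01)
  refine ⟨(SW.suc ω)^[l] v, N - l, (comp_eq_of_same hω (suc_same ω v l)).symm, ?_⟩
  have hit : ∀ j, (SW.suc ω)^[j] ((SW.suc ω)^[l] v) = (SW.suc ω)^[j + l] v := fun j =>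
    (Function.iterate_add_apply _ j l v).symm
  refine ⟨?_, fun j hj => ?_, fun j hj0 hj1 => ?_, ?_⟩
  · exact L.loop_ne hω ⟨v, hne, rfl⟩ (iter_comp ω v l)
  · rw [hit]
    exact hq _ (by omega)
  · rw [hit]
    exact ⟨hgt _ (by omega) (by omega), hlt _ (by omega)⟩
  · left
    rw [hit]
    refine ⟨hl, ?_⟩
    rw [Nat.sub_add_cancel hlN.le]
    exact h1

/-- The strand in the negative direction of the coordinate `p`. -/
theorem strand_neg {p q : Pt → ℤ} (hω : ω ∈ DD V) (hv : v ∈ V) (hne : ω.1 v ≠ ω.2 v)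
    (hp : ∀ u w : Pt, Adj u w → |p w - p u| ≤ 1) {N : ℕ} {p0 p1 q0 q1 : ℤ} (h0 : p1 ≤ p v)
    (h01 : p0 < p1) (h1 : p ((SW.suc ω)^[N] v) = p0) (hlt : ∀ i < N, p0 < p ((SW.suc ω)^[i] v))
    (hq : ∀ i ≤ N, q0 ≤ q ((SW.suc ω)^[i] v) ∧ q ((SW.suc ω)^[i] v) ≤ q1) :
    ∃ u m, comp ω u = comp ω v ∧ Strand p q ω p0 p1 q0 q1 u m := by
  obtain ⟨l, hlN, hl, hgt⟩ := last_nat (s := fun i => - p ((SW.suc ω)^[i] v))
    (fun i => by
      have := hp _ _ (iter_adj hω hv i)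
      rw [abs_le] at this ⊢
      omega) (c := -p1) (N := N) (by simp only [Function.iterate_zero, id_eq]; omega)
    (by simp only [h1]; omega)
  refine ⟨(SW.suc ω)^[l] v, N - l, (comp_eq_of_same hω (suc_same ω v l)).symm, ?_⟩
  have hit : ∀ j, (SW.suc ω)^[j] ((SW.suc ω)^[l] v) = (SW.suc ω)^[j + l] v := fun j =>
    (Function.iterate_add_apply _ j l v).symm
  refine ⟨?_, fun j hj => ?_, fun j hj0 hj1 => ?_, ?_⟩
  · exact L.loop_ne hω ⟨v, hne, rfl⟩ (iter_comp ω v l)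
  · rw [hit]
    exact hq _ (by omega)
  · rw [hit]
    have := hgt (j + l) (by omega) (by omega)
    exact ⟨hlt _ (by omega), by omega⟩
  · right
    rw [hit]
    refine ⟨by omega, ?_⟩
    rw [Nat.sub_add_cancel hlN.le]
    exact h1

theorem adj_fst (u w : Pt) (h : Adj u w) : |w.1 - u.1| ≤ 1 := by
  have := adj_coord h
  rw [abs_le]
  omega

theorem adj_snd (u w : Pt) (h : Adj u w) : |w.2 - u.2| ≤ 1 := by
  have := adj_coord h
  rw [abs_le]
  omega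

/-- **a loop crossing the annulus contains a strand crossing one of four rectangles** -/
theorem four_strands (hω : ω ∈ DD V) {A : Set Pt} (hA : A ∈ Loops ω) {z u0 u1 : Pt} (hn : 1 ≤ n)
    (h0 : u0 ∈ A) (h0' : dn z u0 ≤ n + 1) (h1 : u1 ∈ A) (h1' : 2 * n + 1 ≤ dn z u1) :
    ∃ u m, comp ω u = A ∧
      (Strand Prod.fst Prod.snd ω (z.1 + n + 1) (z.1 + 2 * n + 1) (z.2 - 2 * n - 1)
        (z.2 + 2 * n + 1) u m ∨
      Strand Prod.fst Prod.snd ω (z.1 - 2 * n - 1) (z.1 - n - 1) (z.2 - 2 * n - 1)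
        (z.2 + 2 * n + 1) u m ∨
      Strand Prod.snd Prod.fst ω (z.2 + n + 1) (z.2 + 2 * n + 1) (z.1 - 2 * n - 1)
        (z.1 + 2 * n + 1) u m ∨
      Strand Prod.snd Prod.fst ω (z.2 - 2 * n - 1) (z.2 - n - 1) (z.1 - 2 * n - 1)
        (z.1 + 2 * n + 1) u m) := by
  classical
  have hV := L.loop_subset hω hA h0
  have hne := L.loop_ne hω hA h0
  have hAc : A = comp ω u0 := by
    obtain ⟨w, hw, rfl⟩ := hA
    exact comp_eq_of_same hω h0
  obtain ⟨k, hk⟩ : ∃ k, (SW.suc ω)^[k] u0 = u1 := by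
    rw [hAc, comp_eq_orbit hω hV] at h1
    obtain ⟨k, _, hk⟩ := h1
    exact ⟨k, hk⟩
  have hex : ∃ k, 2 * n + 1 ≤ dn z ((SW.suc ω)^[k] u0) := ⟨k, by rw [hk]; exact h1'⟩
  have hN := Nat.find_spec hex
  have hlt : ∀ i < Nat.find hex, dn z ((SW.suc ω)^[i] u0) < 2 * n + 1 := fun i hi =>
    not_le.1 (Nat.find_min hex hi)
  set N := Nat.find hex with hNd
  have hNpos : 0 < N := by
    rcases Nat.eq_zero_or_pos N with h | h
    · rw [h] at hN
      simp only [Function.iterate_zero, id_eq] at hN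
      omega
    · exact h
  have hstep : dn z ((SW.suc ω)^[N] u0) = 2 * n + 1 := by
    refine le_antisymm ?_ hN
    have h3 := hlt (N - 1) (by omega)
    have h4 := adj_coord (iter_adj hω hV (N - 1))
    rw [Nat.sub_add_cancel hNpos] at h4
    rw [Nat.lt_succ_iff, dn_le_iff, abs_le, abs_le] at h3
    rw [dn_le_iff, abs_le, abs_le]
    push_cast at h3 ⊢
    omega
  have hle : ∀ i ≤ N, |z.1 - ((SW.suc ω)^[i] u0).1| ≤ 2 * n + 1 ∧
      |z.2 - ((SW.suc ω)^[i] u0).2| ≤ 2 * n + 1 := by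
    intro i hi
    have : dn z ((SW.suc ω)^[i] u0) ≤ 2 * n + 1 := by
      rcases hi.lt_or_eq with h | h
      · exact (hlt i h).le
      · rw [h]
        exact hstep.le
    rw [dn_le_iff] at this
    exact_mod_cast this
  have hlt' : ∀ i < N, |z.1 - ((SW.suc ω)^[i] u0).1| ≤ 2 * n ∧
      |z.2 - ((SW.suc ω)^[i] u0).2| ≤ 2 * n := by
    intro i hi
    have h3 := hlt i hi
    rw [Nat.lt_succ_iff, dn_le_iff] at h3
    exact_mod_cast h3
  have h0a : |z.1 - u0.1| ≤ n + 1 ∧ |z.2 - u0.2| ≤ n + 1 := by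
    rw [dn_le_iff] at h0'
    exact_mod_cast h0'
  rw [abs_le, abs_le] at h0a
  have hq1 : ∀ i ≤ N, z.2 - 2 * n - 1 ≤ ((SW.suc ω)^[i] u0).2 ∧
      ((SW.suc ω)^[i] u0).2 ≤ z.2 + 2 * n + 1 := by
    intro i hi
    have := (hle i hi).2
    rw [abs_le] at this
    omega
  have hq2 : ∀ i ≤ N, z.1 - 2 * n - 1 ≤ ((SW.suc ω)^[i] u0).1 ∧
      ((SW.suc ω)^[i] u0).1 ≤ z.1 + 2 * n + 1 := by
    intro i hi
    have := (hle i hi).1
    rw [abs_le] at this
    omega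
  -- which side
  have hside : ((SW.suc ω)^[N] u0).1 = z.1 + 2 * n + 1 ∨ ((SW.suc ω)^[N] u0).1 = z.1 - 2 * n - 1 ∨
      ((SW.suc ω)^[N] u0).2 = z.2 + 2 * n + 1 ∨ ((SW.suc ω)^[N] u0).2 = z.2 - 2 * n - 1 := by
    by_contra hcon
    push Not at hcon
    have h3 := hq1 N le_rfl
    have h4 := hq2 N le_rfl
    have : dn z ((SW.suc ω)^[N] u0) ≤ 2 * n := by
      rw [dn_le_iff, abs_le, abs_le]
      push_cast
      omega
    omega
  rw [hAc]
  rcases hside with h | h | h | h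
  · obtain ⟨u, m, hu, hs⟩ := strand_pos (p := Prod.fst) (q := Prod.snd) hω hV hne adj_fst
      (p0 := z.1 + n + 1) (p1 := z.1 + 2 * n + 1) (by omega) (by omega) h
      (fun i hi => by have := (hlt' i hi).1; rw [abs_le] at this; omega) hq1
    exact ⟨u, m, hu, Or.inl hs⟩
  · obtain ⟨u, m, hu, hs⟩ := strand_neg (p := Prod.fst) (q := Prod.snd) hω hV hne adj_fst
      (p0 := z.1 - 2 * n - 1) (p1 := z.1 - n - 1) (by omega) (by omega) h
      (fun i hi => by have := (hlt' i hi).1; rw [abs_le] at this; omega) hq1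
    exact ⟨u, m, hu, Or.inr (Or.inl hs)⟩
  · obtain ⟨u, m, hu, hs⟩ := strand_pos (p := Prod.snd) (q := Prod.fst) hω hV hne adj_snd
      (p0 := z.2 + n + 1) (p1 := z.2 + 2 * n + 1) (by omega) (by omega) h
      (fun i hi => by have := (hlt' i hi).2; rw [abs_le] at this; omega) hq2
    exact ⟨u, m, hu, Or.inr (Or.inr (Or.inl hs))⟩
  · obtain ⟨u, m, hu, hs⟩ := strand_neg (p := Prod.snd) (q := Prod.fst) hω hV hne adj_snd
      (p0 := z.2 - 2 * n - 1) (p1 := z.2 - n - 1) (by omega) (by omega) h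
      (fun i hi => by have := (hlt' i hi).2; rw [abs_le] at this; omega) hq2
    exact ⟨u, m, hu, Or.inr (Or.inr (Or.inr hs))⟩

/-! ### the rectangles -/

theorem far_box {z : Pt} (h : 16 * n ≤ dF T.faceSet z) (hn : 1 ≤ n) {f : Pt}
    (h1 : |z.1 - f.1| ≤ 4 * n) (h2 : |z.2 - f.2| ≤ 4 * n) : f ∈ T.faceSet := by
  apply mem_of_lt_dF (z := z)
  have : dn z f ≤ 4 * n := by
    rw [dn_le_iff]
    exact_mod_cast And.intro h1 h2
  omega

/-- the rectangle of the coordinates `[x0, x0 + n] × [y - 2n - 1, y + 2n + 1]` -/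
theorem rgeo {x y x0 : ℤ} (hn : 3 ≤ n) (hx : x0 = x + n + 1 ∨ x0 = x - 2 * n - 1)
    (hfar : ∀ f : Pt, |x - f.1| ≤ 4 * n → |y - f.2| ≤ 4 * n → f ∈ T.faceSet) :
    RGeo T x0 (x0 + n) (y - 2 * n - 1) (y + 2 * n + 1) (x0 + (n / 3 : ℕ)) (x0 + 2 * (n / 3 : ℕ))
      30 (n / 3) where
  n1 := by omega
  l := le_rfl
  m := by omega
  r := by omega
  q := by omega
  wid := by push_cast; omega
  hgt := by push_cast; omega
  far := by
    intro f h1 h2 h3 h4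
    refine hfar f ?_ ?_
    · rw [abs_le]
      omega
    · rw [abs_le]
      omega

theorem areaR_le {x0 x1 q0 q1 : ℤ} {z : Pt} {A : Set Pt} {k : ℕ}
    (h : ∀ f : Pt, x0 ≤ f.1 → f.1 < x1 → q0 - 3 * k ≤ f.2 → f.2 < q1 + 3 * k → dn z f ≤ 4 * n) :
    areaR x0 x1 q0 q1 k ω A ≤ cnt ω A (box z (4 * n)) := by
  classical
  unfold areaR cnt
  rw [← Set.ncard_coe_finset]
  refine Set.ncard_le_ncard ?_ (Finset.finite_toSet _)
  rintro f ⟨⟨h1, h2, h3, h4⟩, h5⟩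
  rw [Finset.mem_coe, Finset.mem_filter, mem_box_dn]
  exact ⟨h f h1 h2 h3 h4, h5⟩

end Vale.Agent.P155.Ann
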