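import Vale.Agent.P155.S7.Iface

/-!
# P155, TIGHT (S7/B9): the lower side of a good crossing
-/

namespace Vale.Agent.P155.Ann

open Finset Vale.Agent.P155.T802 Vale.Agent.P155.Q1 Vale.Agent.P155.S7

variable {V : Finset Pt} {ω : Conf} {Q : Cap} {K : Set Pt} {t0 : ℤ}

/-- lowest horizontal edge of `K` in the face column `x` -/
noncomputable def botE (ω : Conf) (K : Set Pt) (x : ℤ) : ℤ := sInf {y | hedge ω K x y}

theorem botE_spec (hω : ω ∈ DD V) (g : Q.Good V ω K) {x : ℤ} (h0 : Q.x0 ≤ x)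
    (h1 : x < Q.x1) : hedge ω K x (botE ω K x) ∧ ∀ y, hedge ω K x y → botE ω K x ≤ y := by
  have hbdd : BddBelow {y | hedge ω K x y} := ⟨Q.y0, fun y h => (hedge_reg g.reg h).1⟩
  have hne : {y | hedge ω K x y}.Nonempty := ⟨_, (g.topE_spec hω h0 h1).1⟩
  exact ⟨Int.csInf_mem hne hbdd, fun y h => csInf_le hbdd h⟩

/-- in a column, below all horizontal edges -/
theorem pr_below (hω : ω ∈ DD V) (hK : Closed Q.W V ω K) (hr : Q.Reg K) {x y : ℤ}
    (hy : y < Q.y1) (hno : ∀ t, t ≤ y → ¬ hedge ω K x t) : Q.pr ω K (x, y) = 0 := by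
  by_cases hlow : y < Q.y0
  · exact pr_out hω hK hr (by simp only; omega)
  have key : ∀ n : ℕ, Q.y0 - 1 + n ≤ y → Q.pr ω K (x, Q.y0 - 1 + n) = 0 := by
    intro n
    induction n with
    | zero => intro _; exact pr_out hω hK hr (by simp only; omega)
    | succ n ih =>
      intro hn
      push_cast at hn ⊢
      have e := par_up (Cap.even hω hK) x (Q.y0 - 1 + (n + 1 : ℤ))
      have e' : Q.y0 - 1 + ((n : ℤ) + 1) - 1 = Q.y0 - 1 + n := by ring
      rw [e'] at e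
      have ih' := ih (by omega)
      unfold Cap.pr at ih' ⊢
      rw [e, ih', zero_add]
      unfold Cap.fB
      rw [eB_hedge (hno _ (by omega)), zero_add]
      unfold Cap.wB
      rw [if_neg (by simp only; omega)]
  have := key (y - (Q.y0 - 1)).toNat (by omega)
  rwa [Int.toNat_of_nonneg (by omega), add_sub_cancel] at this

theorem touch_top (hω : ω ∈ DD V) (g : Q.Good V ω K) {x : ℤ} (h0 : Q.x0 ≤ x)
    (h1 : x < Q.x1) : Touch K (x, topE ω K x) := by
  rcases (g.topE_spec hω h0 h1).1.1 with h | h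
  · exact touch_iff.2 ⟨_, h, by simp [facesAt]⟩
  · exact touch_iff.2 ⟨_, h, by simp [facesAt]⟩

theorem touch_bot (hω : ω ∈ DD V) (g : Q.Good V ω K) {x : ℤ} (h0 : Q.x0 ≤ x)
    (h1 : x < Q.x1) : Touch K (x, botE ω K x - 1) := by
  rcases (botE_spec hω g h0 h1).1.1 with h | h
  · exact touch_iff.2 ⟨_, h, by simp [facesAt]⟩
  · exact touch_iff.2 ⟨_, h, by simp [facesAt]⟩

theorem top_lt_y1 (hω : ω ∈ DD V) (g : Q.Good V ω K) {x : ℤ} (h0 : Q.x0 ≤ x)
    (h1 : x < Q.x1) : topE ω K x < Q.y1 := by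
  have h2 := (hedge_reg g.reg (g.topE_spec hω h0 h1).1).2
  have h3 := Q.hy1
  omega

theorem pr_topE (hω : ω ∈ DD V) (g : Q.Good V ω K) {x : ℤ} (h0 : Q.x0 ≤ x)
    (h1 : x < Q.x1) : Q.pr ω K (x, topE ω K x) = 1 :=
  g.above hω h0 h1 (top_lt_y1 hω g h0 h1) le_rfl

theorem pr_botE (hω : ω ∈ DD V) (g : Q.Good V ω K) {x : ℤ} (h0 : Q.x0 ≤ x)
    (h1 : x < Q.x1) : Q.pr ω K (x, botE ω K x - 1) = 0 := by
  have h2 := (botE_spec hω g h0 h1)
  have h3 := (hedge_reg g.reg h2.1).2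
  have h4 := Q.hy1
  refine pr_below hω (g.closed hω) g.reg (by omega) (fun t ht hh => ?_)
  have := h2.2 t hh
  omega

/-- **the owner surrounds exactly one of the faces above the top and below the bottom** -/
theorem up_or_down (hω : ω ∈ DD V) (g : Q.Good V ω K) {A : Set Pt} (hA : A ∈ Loops ω) {u : Pt}
    (hu : u ∈ K) (huA : u ∈ A) {x x' : ℤ} (h0 : Q.x0 ≤ x) (h1 : x < Q.x1) (h0' : Q.x0 ≤ x')
    (h1' : x' < Q.x1) : ¬ (surr ω A (x, topE ω K x) ↔ surr ω A (x', botE ω K x' - 1)) := by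
  refine other_side hω g hA hu huA (touch_top hω g h0 h1) (touch_bot hω g h0' h1') ?_
  rw [pr_topE hω g h0 h1, pr_botE hω g h0' h1']
  decide

/-- the tops of all columns are on the same side -/
theorem up_all (hω : ω ∈ DD V) (g : Q.Good V ω K) {A : Set Pt} (hA : A ∈ Loops ω)
    {x x' : ℤ} (h0 : Q.x0 ≤ x) (h1 : x < Q.x1) (h0' : Q.x0 ≤ x')
    (h1' : x' < Q.x1) : surr ω A (x, topE ω K x) ↔ surr ω A (x', topE ω K x') := by
  refine same_side hω g hA (touch_top hω g h0 h1) (touch_top hω g h0' h1') ?_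
  rw [pr_topE hω g h0 h1, pr_topE hω g h0' h1']

/-! ### strands and the good crossings `cj` -/

theorem own_eq {v : Pt} {m : ℕ} {j : ℕ} (hm : 2 ≤ m)
    (h : inner ω v m = Q.cj V t0 ω j) (hω : ω ∈ DD V) : own Q V t0 ω j = comp ω v := by
  ext u
  constructor
  · rintro ⟨w, hw, hu⟩
    rw [← h] at hw
    obtain ⟨i, _, _, rfl⟩ := hw
    exact Relation.ReflTransGen.trans (iter_comp ω v i) hu
  · intro hu
    refine ⟨SW.suc ω v, ?_, ?_⟩
    · rw [← h]
      exact ⟨1, by omega, by omega, rfl⟩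
    · exact Relation.ReflTransGen.trans (L.same_symm hω (iter_comp ω v 1)) hu

/-- a strand whose loop surrounds the face above its top in some column is a good crossing with
the property `UpIn` -/
theorem strand_up (hω : ω ∈ DD V) (h0 : ∀ t ≤ t0, (Q.xS, t) ∉ V) (ht : t0 < Q.y1) {q0 q1 : ℤ}
    {v : Pt} {m : ℕ} (hq0 : Q.y0 ≤ q0) (hq1 : q1 ≤ Q.yc)
    (hs : Strand Prod.fst Prod.snd ω Q.x0 Q.x1 q0 q1 v m) {x : ℤ} (hx0 : Q.x0 ≤ x)
    (hx1 : x < Q.x1) (hup : surr ω (comp ω v) (x, topE ω (inner ω v m) x)) :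
    ∃ j, 1 ≤ j ∧ Q.Has V t0 ω j ∧ UpIn Q V t0 ω j ∧ own Q V t0 ω j = comp ω v := by
  have g := st_good hω hq0 hq1 hs
  obtain ⟨j, hj, hH, hK⟩ := good_eq_cj hω h0 ht g
  have ho := own_eq (st_two hω hs) hK hω
  refine ⟨j, hj, hH, ⟨(x, topE ω (inner ω v m) x), ?_, ?_, ?_⟩, ho⟩
  · rw [← hK]
    exact touch_top hω g hx0 hx1
  · rw [← hK]
    exact pr_topE hω g hx0 hx1
  · rw [ho]
    exact hup

end Vale.Agent.P155.Ann
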