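import Mathlib

/-!
# P155, literal Q1, block TL, part 1: choice of the columns, exceptional values
-/

namespace Vale.Agent.P155.TLb

open Set

/-- first hitting of the level `r` -/
structure Hit (e : ℝ → ℝ) (a b r β β' : ℝ) : Prop where
  h1 : a < β
  h2 : β ≤ β'
  h3 : β' < b
  eq : e β = r
  lt : ∀ x, a ≤ x → x < β → e x < r
  le : ∀ x, a ≤ x → x ≤ β' → e x ≤ r
  ex : ∀ ε > 0, ∃ z, β' < z ∧ z < β' + ε ∧ z ≤ b ∧ r < e z

theorem first_hit {e : ℝ → ℝ} (he : Continuous e) {a b r : ℝ} (hab : a < b) (ha : e a < r)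
    (hb : r < e b) : ∃ β β', Hit e a b r β β' := by
  set S : Set ℝ := {x | x ∈ Icc a b ∧ r ≤ e x} with hS
  have hSc : IsCompact S := by
    have : S = Icc a b ∩ e ⁻¹' Ici r := rfl
    rw [this]
    exact isCompact_Icc.inter_right (isClosed_Ici.preimage he)
  have hSne : S.Nonempty := ⟨b, ⟨hab.le, le_rfl⟩, hb.le⟩
  have hβ := hSc.sInf_mem hSne
  set β := sInf S with hβd
  have hbelow : ∀ x, a ≤ x → x < β → e x < r := by
    intro x hx hxβ
    by_contra h
    push Not at h
    have : x ∈ S := ⟨⟨hx, hxβ.le.trans hβ.1.2⟩, h⟩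
    have := csInf_le hSc.bddBelow this
    linarith
  have haβ : a < β := by
    rcases eq_or_lt_of_le hβ.1.1 with h | h
    · exfalso
      have := hβ.2
      rw [← h] at this
      linarith
    · exact h
  have heβ : e β = r := by
    apply le_antisymm _ hβ.2
    by_contra h
    push Not at h
    obtain ⟨x, hx, hxr⟩ := intermediate_value_Icc haβ.le he.continuousOn
      (show r ∈ Icc (e a) (e β) from ⟨ha.le, h.le⟩)
    rcases eq_or_lt_of_le hx.2 with h' | h'
    · rw [h'] at hxr
      linarith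
    · have := hbelow x hx.1 h'
      linarith
  set S' : Set ℝ := {x | x ∈ Icc a b ∧ r < e x} with hS'
  have hne' : S'.Nonempty := ⟨b, ⟨hab.le, le_rfl⟩, hb⟩
  have hbb' : BddBelow S' := ⟨a, fun x hx => hx.1.1⟩
  set β' := sInf S' with hβ'd
  have hββ' : β ≤ β' := by
    apply le_csInf hne'
    intro x hx
    exact csInf_le hSc.bddBelow ⟨hx.1, hx.2.le⟩
  have hβ'b : β' ≤ b := csInf_le hbb' ⟨⟨hab.le, le_rfl⟩, hb⟩
  have hle1 : ∀ x, a ≤ x → x < β' → e x ≤ r := by
    intro x hx hxβ
    by_contra h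
    push Not at h
    have : x ∈ S' := ⟨⟨hx, hxβ.le.trans hβ'b⟩, h⟩
    have := csInf_le hbb' this
    linarith
  have heβ' : e β' ≤ r := by
    by_contra h
    push Not at h
    have hopen : IsOpen (e ⁻¹' Ioi r) := isOpen_Ioi.preimage he
    obtain ⟨ε, hε, hball⟩ := Metric.isOpen_iff.1 hopen β' h
    set x := max a (β' - ε / 2) with hx
    have haβ' : a < β' := haβ.trans_le hββ'
    have hxlt : x < β' := max_lt haβ' (by linarith)
    have hxmem : x ∈ Metric.ball β' ε := by
      rw [Metric.mem_ball, Real.dist_eq, abs_lt]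
      have := le_max_right a (β' - ε / 2)
      constructor <;> linarith
    have h1 : r < e x := hball hxmem
    have h2 := hle1 x (le_max_left _ _) hxlt
    linarith
  have hle : ∀ x, a ≤ x → x ≤ β' → e x ≤ r := by
    intro x hx hxβ
    rcases eq_or_lt_of_le hxβ with h | h
    · rw [h]
      exact heβ'
    · exact hle1 x hx h
  have hex : ∀ ε > 0, ∃ z, β' < z ∧ z < β' + ε ∧ z ≤ b ∧ r < e z := by
    intro ε hε
    obtain ⟨z, hz, hzlt⟩ := exists_lt_of_csInf_lt hne' (show sInf S' < β' + ε by linarith)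
    refine ⟨z, ?_, hzlt, hz.1.2, hz.2⟩
    rcases eq_or_lt_of_le (csInf_le hbb' hz) with h | h
    · exfalso
      have := hz.2
      rw [← h] at this
      linarith
    · exact h
  obtain ⟨z, hz1, _, hz2, _⟩ := hex 1 one_pos
  exact ⟨β, β', haβ, hββ', lt_of_lt_of_le hz1 hz2, heβ, hbelow, hle, hex⟩

theorem hit_mono {e : ℝ → ℝ} {a b r r' β β' γ γ' : ℝ} (h : Hit e a b r β β')
    (h' : Hit e a b r' γ γ') (hr : r < r') : β' < γ := by
  by_contra hcon
  push Not at hcon
  have := h.le γ h'.h1.le hcon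
  rw [h'.eq] at this
  linarith

/-- Most levels are good: between the first hitting and the first crossing of the level `r` the
function stays above `w`. -/
theorem choice {e : ℝ → ℝ} (he : Continuous e) {a b : ℝ} (hab : a < b) {w z : ℚ} (hwz : w < z)
    (ha : e a < w) (hb : z < e b) :
    ∃ r : ℚ, w < r ∧ r < z ∧ ∃ β β', Hit e a b r β β' ∧ ∀ u, β ≤ u → u ≤ β' → (w : ℝ) < e u := by
  by_contra hcon
  push Not at hcon
  set w1 : ℚ := (w + z) / 2 with hw1
  have hww1 : w < w1 := by rw [hw1]; linarith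
  have hw1z : w1 < z := by rw [hw1]; linarith
  set rr : ℕ → ℚ := fun n => w1 + (z - w1) * (1 - 1 / (n + 2)) with hrr
  have hpos : ∀ n : ℕ, (0 : ℚ) < 1 / (n + 2) := fun n => by positivity
  have hlt1 : ∀ n : ℕ, (1 : ℚ) / (n + 2) < 1 := by
    intro n
    rw [div_lt_one (by positivity)]
    have : (0 : ℚ) ≤ n := by positivity
    linarith
  have hr1 : ∀ n, w1 < rr n := by
    intro n
    have h1 : 0 < (z - w1) * (1 - 1 / (n + 2)) :=
      mul_pos (by linarith) (by linarith [hlt1 n])
    simp only [hrr]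
    linarith
  have hr2 : ∀ n, rr n < z := by
    intro n
    have h1 : (z - w1) * (1 - 1 / (n + 2)) < z - w1 := by
      have := mul_pos (show 0 < z - w1 by linarith) (hpos n)
      nlinarith
    simp only [hrr]
    linarith
  have hrm : ∀ n, rr n < rr (n + 1) := by
    intro n
    have h1 : (1 : ℚ) / ((n + 1 : ℕ) + 2) < 1 / (n + 2) := by
      apply one_div_lt_one_div_of_lt (by positivity)
      push_cast
      linarith
    simp only [hrr]
    have : (z - w1) * (1 - 1 / (n + 2)) < (z - w1) * (1 - 1 / ((n + 1 : ℕ) + 2)) :=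
      mul_lt_mul_of_pos_left (by linarith) (by linarith)
    linarith
  have hhit : ∀ n, ∃ β β', Hit e a b (rr n) β β' := by
    intro n
    apply first_hit he hab
    · have h1 : w < rr n := hww1.trans (hr1 n)
      have h2 : (w : ℝ) < rr n := by exact_mod_cast h1
      linarith
    · have h2 : (rr n : ℝ) < z := by exact_mod_cast hr2 n
      linarith
  choose B B' hB using hhit
  -- uniform continuity
  have huc : UniformContinuousOn e (Icc a b) :=
    isCompact_Icc.uniformContinuousOn_of_continuous he.continuousOn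
  have hgap : (0 : ℝ) < w1 - w := by
    have : (w : ℝ) < w1 := by exact_mod_cast hww1
    linarith
  obtain ⟨h, hh, hunif⟩ := Metric.uniformContinuousOn_iff.1 huc _ hgap
  have hbad : ∀ n, B n + h ≤ B' n := by
    intro n
    obtain ⟨u, hu1, hu2, hu3⟩ := hcon (rr n) (hww1.trans (hr1 n)) (hr2 n) (B n) (B' n) (hB n)
    have hBn := hB n
    by_contra hlt
    push Not at hlt
    have h1 : dist (B n) u < h := by
      rw [Real.dist_eq, abs_lt]
      constructor <;> linarith
    have h2 := hunif (B n) ⟨hBn.h1.le, hBn.h2.trans hBn.h3.le⟩ u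
      ⟨hBn.h1.le.trans hu1, hu2.trans hBn.h3.le⟩ h1
    rw [hBn.eq, Real.dist_eq, abs_lt] at h2
    have h3 : (w1 : ℝ) < rr n := by exact_mod_cast hr1 n
    linarith [h2.2]
  have hgrow : ∀ n : ℕ, a + n * h ≤ B n := by
    intro n
    induction n with
    | zero =>
      simp only [Nat.cast_zero, zero_mul, add_zero]
      exact (hB 0).h1.le
    | succ n ih =>
      have h1 : (rr n : ℝ) < rr (n + 1) := by exact_mod_cast hrm n
      have h2 := hit_mono (hB n) (hB (n + 1)) h1
      have h3 := hbad n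
      push_cast
      linarith
  obtain ⟨n, hn⟩ := exists_nat_gt ((b - a) / h)
  rw [div_lt_iff₀ hh] at hn
  have h1 := hgrow n
  have h2 := hB n
  have h3 := h2.h2
  have h4 := h2.h3
  linarith

/-- the window -/
structure Win (e : ℝ → ℝ) (a b r0 r0' r1' r1 α' α β β' : ℝ) : Prop where
  o1 : a < α'
  o2 : α' ≤ α
  o3 : α < β
  o4 : β ≤ β'
  o5 : β' < b
  eα : e α = r0
  eβ : e β = r1
  ltβ : ∀ x, a ≤ x → x < β → e x < r1
  leβ : ∀ x, a ≤ x → x ≤ β' → e x ≤ r1
  exβ : ∀ ε > 0, ∃ z, β' < z ∧ z < β' + ε ∧ z ≤ b ∧ r1 < e z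
  gtα : ∀ x, α < x → x ≤ β → r0 < e x
  geα : ∀ x, α' ≤ x → x ≤ β → r0 ≤ e x
  exα : ∀ ε > 0, ∃ z, α' - ε < z ∧ z < α' ∧ a ≤ z ∧ e z < r0
  shα : ∀ u, α' ≤ u → u ≤ α → e u < r0'
  shβ : ∀ u, β ≤ u → u ≤ β' → r1' < e u
  l0 : r0 < r0'
  l1 : r0' < r1'
  l2 : r1' < r1

theorem exists_win {e : ℝ → ℝ} (he : Continuous e) {a b : ℝ} (hab : a < b) (hlt : e a < e b) :
    ∃ r0 r0' r1' r1 : ℚ, e a < r0 ∧ (r1 : ℝ) < e b ∧
      ∃ α' α β β', Win e a b r0 r0' r1' r1 α' α β β' := by
  obtain ⟨v0, hv0, hv0'⟩ := exists_rat_btwn hlt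
  obtain ⟨v1, hv1, hv1'⟩ := exists_rat_btwn hv0'
  have hv01 : v0 < v1 := by exact_mod_cast hv1
  set r0' : ℚ := v0 + (v1 - v0) / 3 with hr0'
  set r1' : ℚ := v0 + 2 * (v1 - v0) / 3 with hr1'
  have e1 : v0 < r0' := by rw [hr0']; linarith
  have e2 : r0' < r1' := by rw [hr0', hr1']; linarith
  have e3 : r1' < v1 := by rw [hr1']; linarith
  have e1' : (v0 : ℝ) < r0' := by exact_mod_cast e1
  have e2' : (r0' : ℝ) < r1' := by exact_mod_cast e2
  have e3' : (r1' : ℝ) < v1 := by exact_mod_cast e3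
  obtain ⟨r1, hr1a, hr1b, β, β', hit, hsh⟩ := choice he hab e3 (by linarith) hv1'
  have hr1a' : (r1' : ℝ) < r1 := by exact_mod_cast hr1a
  have hr1b' : (r1 : ℝ) < v1 := by exact_mod_cast hr1b
  -- reflection
  set E : ℝ → ℝ := fun x => - e (a + β - x) with hE
  have hEc : Continuous E := (he.comp (continuous_const.sub continuous_id)).neg
  have hEa : E a = - r1 := by
    simp only [hE]
    have : a + β - a = β := by ring
    rw [this, hit.eq]
  have hEβ : E β = - e a := by
    simp only [hE]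
    have : a + β - β = a := by ring
    rw [this]
  have hw : (-r0' : ℚ) < (-v0 : ℚ) := by linarith
  obtain ⟨r, hra, hrb, γ, γ', hit', hsh'⟩ := choice hEc hit.h1 hw
    (by rw [hEa]; push_cast; linarith) (by rw [hEβ]; push_cast; linarith)
  have hra' : -(r0' : ℝ) < r := by
    have : ((-r0' : ℚ) : ℝ) < r := by exact_mod_cast hra
    push_cast at this
    exact this
  have hrb' : (r : ℝ) < -v0 := by
    have : (r : ℝ) < ((-v0 : ℚ) : ℝ) := by exact_mod_cast hrb
    push_cast at this
    exact this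
  have key : ∀ x, e x = - E (a + β - x) := by
    intro x
    simp only [hE]
    have : a + β - (a + β - x) = x := by ring
    rw [this, neg_neg]
  have g1 := hit'.h1
  have g2 := hit'.h2
  have g3 := hit'.h3
  refine ⟨-r, r0', r1', r1, ?_, ?_, a + β - γ', a + β - γ, β, β', ?_⟩
  · push_cast
    linarith
  · linarith
  · refine ⟨by linarith, by linarith, by linarith, hit.h2, hit.h3, ?_, hit.eq, hit.lt, hit.le,
      hit.ex, ?_, ?_, ?_, ?_, hsh, ?_, e2', hr1a'⟩
    · rw [key]
      have : a + β - (a + β - γ) = γ := by ring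
      rw [this, hit'.eq]
      push_cast
      ring
    · intro x hx1 hx2
      rw [key]
      have := hit'.lt (a + β - x) (by linarith) (by linarith)
      push_cast
      linarith
    · intro x hx1 hx2
      rw [key]
      have := hit'.le (a + β - x) (by linarith) (by linarith)
      push_cast
      linarith
    · intro ε hε
      obtain ⟨z, hz1, hz2, hz3, hz4⟩ := hit'.ex ε hε
      refine ⟨a + β - z, by linarith, by linarith, by linarith, ?_⟩
      rw [key]
      have : a + β - (a + β - z) = z := by ring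
      rw [this]
      push_cast
      linarith
    · intro u hu1 hu2
      rw [key]
      have h1 := hsh' (a + β - u) (by linarith) (by linarith)
      push_cast at h1
      linarith
    · push_cast
      linarith

/-- values which are taken with crossing at all their preimages -/
def Reg (e : ℝ → ℝ) (x : ℝ) : Prop :=
  ∀ u, e u = x → ∀ ε > 0, (∃ v, |v - u| < ε ∧ e v < x) ∧ ∃ v, |v - u| < ε ∧ x < e v

theorem countable_not_reg {e : ℝ → ℝ} (he : Continuous e) : {x | ¬ Reg e x}.Countable := by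
  have hsub : {x | ¬ Reg e x} ⊆
      (Set.range fun p : ℚ × ℚ => sSup (e '' Icc (p.1 : ℝ) p.2)) ∪
      (Set.range fun p : ℚ × ℚ => sInf (e '' Icc (p.1 : ℝ) p.2)) := by
    intro x hx
    have hx : ¬ Reg e x := hx
    unfold Reg at hx
    push Not at hx
    obtain ⟨u, hu, ε, hε, h⟩ := hx
    obtain ⟨c, hc1, hc2⟩ := exists_rat_btwn (show u - ε < u by linarith)
    obtain ⟨d, hd1, hd2⟩ := exists_rat_btwn (show u < u + ε by linarith)
    have hmem : u ∈ Icc (c : ℝ) d := ⟨hc2.le, hd1.le⟩
    have hin : ∀ v ∈ Icc (c : ℝ) d, |v - u| < ε := by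
      intro v hv
      rw [abs_lt]
      constructor <;> linarith [hv.1, hv.2]
    by_cases hlow : ∃ v, |v - u| < ε ∧ e v < x
    · -- then a local maximum
      left
      have h2 := h hlow
      refine ⟨(c, d), ?_⟩
      apply IsGreatest.csSup_eq
      refine ⟨⟨u, hmem, hu⟩, ?_⟩
      rintro _ ⟨v, hv, rfl⟩
      exact h2 v (hin v hv)
    · right
      push Not at hlow
      refine ⟨(c, d), ?_⟩
      apply IsLeast.csInf_eq
      refine ⟨⟨u, hmem, hu⟩, ?_⟩
      rintro _ ⟨v, hv, rfl⟩
      exact hlow v (hin v hv)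
  exact ((countable_range _).union (countable_range _)).mono hsub

end Vale.Agent.P155.TLb
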