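import Vale.Agent.P155.U902.TL1

/-!
# P155, literal Q1, block TL, part 2: discrete paths following a curve
-/

namespace Vale.Agent.P155.TLb

open Set

/-! ## Discrete intermediate values -/

theorem first_nat {p : ℤ → ℤ} (hp : ∀ l, |p (l + 1) - p l| ≤ 1) {l c : ℤ} {n : ℕ} (h1 : p l < c)
    (h2 : c ≤ p (l + n)) : ∃ k : ℕ, 0 < k ∧ k ≤ n ∧ p (l + k) = c ∧ ∀ j < k, p (l + j) < c := by
  classical
  have hex : ∃ k : ℕ, c ≤ p (l + k) := ⟨n, h2⟩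
  have hk := Nat.find_spec hex
  have hmin : ∀ j < Nat.find hex, p (l + j) < c := fun j hj => not_le.1 (Nat.find_min hex hj)
  have hle : Nat.find hex ≤ n := Nat.find_min' hex h2
  set k := Nat.find hex with hkd
  have hpos : 0 < k := by
    rcases Nat.eq_zero_or_pos k with h | h
    · rw [h] at hk
      simp at hk
      omega
    · exact h
  refine ⟨k, hpos, hle, ?_, hmin⟩
  have h3 := hmin (k - 1) (by omega)
  have h4 := hp (l + (k - 1 : ℕ))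
  have h5 : l + ((k - 1 : ℕ) : ℤ) + 1 = l + k := by
    push_cast [Nat.cast_sub hpos]
    ring
  rw [h5, abs_le] at h4
  omega

/-- first index with `p = c` -/
theorem first_idx {p : ℤ → ℤ} (hp : ∀ l, |p (l + 1) - p l| ≤ 1) {l r c : ℤ} (hlr : l ≤ r)
    (h1 : p l < c) (h2 : c ≤ p r) : ∃ i, l < i ∧ i ≤ r ∧ p i = c ∧ ∀ j, l ≤ j → j < i → p j < c := by
  obtain ⟨n, hn⟩ := Int.le.dest hlr
  rw [← hn] at h2
  obtain ⟨k, hk0, hkn, hkc, hk⟩ := first_nat hp h1 h2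
  refine ⟨l + k, by omega, by omega, hkc, fun j hj1 hj2 => ?_⟩
  obtain ⟨t, ht⟩ := Int.le.dest hj1
  rw [← ht]
  exact hk t (by omega)

/-- last index with `p = c` -/
theorem last_idx {p : ℤ → ℤ} (hp : ∀ l, |p (l + 1) - p l| ≤ 1) {l r c : ℤ} (hlr : l ≤ r)
    (h1 : p l ≤ c) (h2 : c < p r) : ∃ i, l ≤ i ∧ i < r ∧ p i = c ∧ ∀ j, i < j → j ≤ r → c < p j := by
  obtain ⟨P, hP⟩ : ∃ P : ℤ → ℤ, ∀ i, P i = - p (-i) := ⟨fun i => - p (-i), fun i => rfl⟩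
  have hp' : ∀ l, |P (l + 1) - P l| ≤ 1 := by
    intro l
    have h := hp (-(l + 1))
    have h3 : -(l + 1) + 1 = -l := by ring
    rw [h3, abs_le] at h
    rw [hP, hP, abs_le]
    constructor <;> linarith [h.1, h.2]
  obtain ⟨i, hi1, hi2, hi3, hi4⟩ := first_idx hp' (l := -r) (r := -l) (c := -c) (by omega)
    (by rw [hP, neg_neg]; linarith) (by rw [hP, neg_neg]; linarith)
  rw [hP] at hi3
  refine ⟨-i, by omega, by omega, by linarith, fun j hj1 hj2 => ?_⟩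
  have h := hi4 (-j) (by omega) (by omega)
  rw [hP, neg_neg] at h
  linarith

theorem edge_up {x y X : ℤ} (h1 : x = X) (h2 : X < y) (h3 : |y - x| ≤ 1) :
    min x y = X ∧ max x y = X + 1 := by
  rw [abs_le] at h3
  omega

theorem edge_dn {x y X : ℤ} (h1 : -x = -X - 1) (h2 : -X - 1 < -y) (h3 : |y - x| ≤ 1) :
    min x y = X ∧ max x y = X + 1 := by
  rw [abs_le] at h3
  omega

/-- an edge across the column `X` -/
theorem cross_idx {p : ℤ → ℤ} (hp : ∀ l, |p (l + 1) - p l| ≤ 1) {l r X : ℤ} (hlr : l ≤ r)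
    (h : (p l ≤ X ∧ X < p r) ∨ (X < p l ∧ p r ≤ X)) :
    ∃ i, l ≤ i ∧ i < r ∧ min (p i) (p (i + 1)) = X ∧ max (p i) (p (i + 1)) = X + 1 := by
  rcases h with ⟨h1, h2⟩ | ⟨h1, h2⟩
  · obtain ⟨i, hi1, hi2, hi3, hi4⟩ := last_idx hp hlr h1 h2
    have h5 := hi4 (i + 1) (by omega) (by omega)
    exact ⟨i, hi1, hi2, edge_up hi3 h5 (hp i)⟩
  · obtain ⟨P, hP⟩ : ∃ P : ℤ → ℤ, ∀ i, P i = - p i := ⟨fun i => - p i, fun i => rfl⟩
    have hp' : ∀ l, |P (l + 1) - P l| ≤ 1 := by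
      intro l
      have h := hp l
      rw [hP, hP]
      rw [abs_le] at h ⊢
      constructor <;> linarith [h.1, h.2]
    obtain ⟨i, hi1, hi2, hi3, hi4⟩ := last_idx hp' (l := l) (r := r) (c := -X - 1) hlr
      (by rw [hP]; omega) (by rw [hP]; omega)
    have h5 := hi4 (i + 1) (by omega) (by omega)
    rw [hP] at hi3 h5
    exact ⟨i, hi1, hi2, edge_dn hi3 h5 (hp i)⟩

/-! ## Runs -/

/-- A lattice path following the curve `(e, f)`; `H` is the time on the curve as a function of the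
index. -/
structure Run (e f : ℝ → ℝ) (a b pA qA δ ε : ℝ) (p q : ℤ → ℤ) (H : ℝ → ℝ) (xs xt : ℝ) : Prop where
  δ0 : 0 < δ
  δε : δ ≤ ε
  step : ∀ l, |p (l + 1) - p l| + |q (l + 1) - q l| = 1
  xst : xs ≤ xt
  Hc : Continuous H
  Hm : ∀ x ∈ Icc xs xt, H x ∈ Icc a b
  Hs : H xs = a
  Ht : H xt = b
  pc : ∀ x ∈ Icc xs xt, |pA + δ * p ⌊x⌋ - e (H x)| ≤ ε
  qc : ∀ x ∈ Icc xs xt, |qA + δ * q ⌊x⌋ - f (H x)| ≤ ε

variable {e f : ℝ → ℝ} {a b pA qA δ ε : ℝ} {p q : ℤ → ℤ} {H : ℝ → ℝ} {xs xt : ℝ}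

theorem Run.stepp (R : Run e f a b pA qA δ ε p q H xs xt) (l : ℤ) : |p (l + 1) - p l| ≤ 1 := by
  have := R.step l
  have := abs_nonneg (q (l + 1) - q l)
  omega

/-- The crossing from `p0` to `p1` between the indices `i0` and `i1`. -/
structure IsStr (p : ℤ → ℤ) (xs xt : ℝ) (p0 p1 i0 i1 : ℤ) : Prop where
  i01 : i0 < i1
  ge : xs ≤ i0
  le : (i1 : ℝ) ≤ xt
  e0 : p i0 = p0
  e1 : p i1 = p1
  lt1 : ∀ i, ⌊xs⌋ ≤ i → i < i1 → p i < p1
  gt0 : ∀ i, i0 < i → i ≤ i1 → p0 < p i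

theorem lp_le {pA δ r : ℝ} (hδ : 0 < δ) : pA + δ * ⌊(r - pA) / δ⌋ ≤ r := by
  have h := Int.floor_le ((r - pA) / δ)
  rw [le_div_iff₀ hδ] at h
  linarith

theorem lt_lp {pA δ r : ℝ} (hδ : 0 < δ) : r - δ < pA + δ * ⌊(r - pA) / δ⌋ := by
  have h := Int.lt_floor_add_one ((r - pA) / δ)
  rw [div_lt_iff₀ hδ] at h
  linarith

theorem le_lp {pA δ r : ℝ} (hδ : 0 < δ) {n : ℤ} : n ≤ ⌊(r - pA) / δ⌋ ↔ pA + δ * n ≤ r := by
  rw [Int.le_floor, le_div_iff₀ hδ]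
  constructor <;> intro h <;> linarith

theorem lp_lt {pA δ r : ℝ} (hδ : 0 < δ) {n : ℤ} : ⌊(r - pA) / δ⌋ < n ↔ r < pA + δ * n := by
  rw [← not_le, le_lp hδ, not_le]

theorem lattice_lt {pA δ : ℝ} (hδ : 0 < δ) {m n : ℤ} (h : pA + δ * m < pA + δ * n) : m < n := by
  have h1 : δ * (m : ℝ) < δ * n := by linarith
  have h2 := lt_of_mul_lt_mul_left h1 hδ.le
  exact_mod_cast h2

theorem lattice_le {pA δ : ℝ} (hδ : 0 < δ) {m n : ℤ} (h : m ≤ n) : pA + δ * m ≤ pA + δ * n := by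
  have h1 : (m : ℝ) ≤ n := by exact_mod_cast h
  have := mul_le_mul_of_nonneg_left h1 hδ.le
  linarith

/-- existence of the strand -/
theorem exists_str {r0 r0' r1' r1 α' α β β' : ℝ} (ha : e a < r0) (hb : r1 < e b)
    (W : Win e a b r0 r0' r1' r1 α' α β β') :
    ∃ ε0 : ℝ, 0 < ε0 ∧ ∀ {pA qA δ ε : ℝ} {p q : ℤ → ℤ} {H : ℝ → ℝ} {xs xt : ℝ},
      Run e f a b pA qA δ ε p q H xs xt → ε ≤ ε0 →
      ∃ i0 i1, IsStr p xs xt ⌊(r0 - pA) / δ⌋ ⌊(r1 - pA) / δ⌋ i0 i1 := by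
  set ε0 : ℝ := min ((r0 - e a) / 3) (min ((e b - r1) / 2) ((r1 - r0) / 2)) with hε0
  have hr : r0 < r1 := W.l0.trans (W.l1.trans W.l2)
  refine ⟨ε0, ?_, ?_⟩
  · rw [hε0]
    refine lt_min (by linarith) (lt_min (by linarith) (by linarith))
  intro pA qA δ ε p q H xs xt R hε
  have hδ := R.δ0
  have hδε := R.δε
  have e1 : ε ≤ (r0 - e a) / 3 := hε.trans (min_le_left _ _)
  have e2 : ε ≤ (e b - r1) / 2 := hε.trans ((min_le_right _ _).trans (min_le_left _ _))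
  have e3 : ε ≤ (r1 - r0) / 2 := hε.trans ((min_le_right _ _).trans (min_le_right _ _))
  have hs := R.pc xs ⟨le_rfl, R.xst⟩
  have ht := R.pc xt ⟨R.xst, le_rfl⟩
  rw [R.Hs, abs_le] at hs
  rw [R.Ht, abs_le] at ht
  have k0 := lp_le (pA := pA) (r := r0) hδ
  have k0' := lt_lp (pA := pA) (r := r0) hδ
  have k1 := lp_le (pA := pA) (r := r1) hδ
  have k1' := lt_lp (pA := pA) (r := r1) hδ
  set p0 := ⌊(r0 - pA) / δ⌋
  set p1 := ⌊(r1 - pA) / δ⌋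
  have hp0 : p ⌊xs⌋ < p0 := lattice_lt (pA := pA) hδ (by linarith)
  have hp1 : p1 < p ⌊xt⌋ := lattice_lt (pA := pA) hδ (by linarith)
  have hp01 : p0 < p1 := lattice_lt (pA := pA) hδ (by linarith)
  obtain ⟨i1, h1, h2, h3, h4⟩ := first_idx R.stepp (Int.floor_le_floor R.xst)
    (hp0.trans hp01) hp1.le
  obtain ⟨i0, g1, g2, g3, g4⟩ := last_idx R.stepp h1.le hp0.le (by rw [h3]; exact hp01)
  refine ⟨i0, i1, g2, ?_, ?_, g3, h3, h4, g4⟩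
  · have : ⌊xs⌋ < i0 := by
      rcases g1.lt_or_eq with h | h
      · exact h
      · exfalso
        rw [← h] at g3
        omega
    have h5 : ⌊xs⌋ + 1 ≤ i0 := this
    have h6 : ((⌊xs⌋ + 1 : ℤ) : ℝ) ≤ i0 := by exact_mod_cast h5
    have h7 := Int.lt_floor_add_one xs
    push_cast at h6
    linarith
  · have h5 : (i1 : ℝ) ≤ ⌊xt⌋ := by exact_mod_cast h2
    exact h5.trans (Int.floor_le xt)

/-- the values of `q` -/
theorem exists_q (hf : Continuous f) (hab : a ≤ b) {s0 s1 : ℝ}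
    (hs : ∀ x ∈ Icc a b, s0 < f x ∧ f x < s1) :
    ∃ ε0 : ℝ, 0 < ε0 ∧ ∀ {pA qA δ ε : ℝ} {p q : ℤ → ℤ} {H : ℝ → ℝ} {xs xt : ℝ},
      Run e f a b pA qA δ ε p q H xs xt → ε ≤ ε0 →
      ∀ i : ℤ, xs ≤ i → (i : ℝ) ≤ xt →
        ⌊(s0 - qA) / δ⌋ ≤ q i ∧ q i ≤ ⌊(s1 - qA) / δ⌋ := by
  obtain ⟨u, hu, hu'⟩ := isCompact_Icc.exists_isMinOn (nonempty_Icc.2 hab) hf.continuousOn
  obtain ⟨v, hv, hv'⟩ := isCompact_Icc.exists_isMaxOn (nonempty_Icc.2 hab) hf.continuousOn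
  refine ⟨min (f u - s0) (s1 - f v), lt_min (by linarith [(hs u hu).1])
    (by linarith [(hs v hv).2]), ?_⟩
  intro pA qA δ ε p q H xs xt R hε i hi1 hi2
  have e1 : ε ≤ f u - s0 := hε.trans (min_le_left _ _)
  have e2 : ε ≤ s1 - f v := hε.trans (min_le_right _ _)
  have h1 := R.qc i ⟨hi1, hi2⟩
  have h2 := R.Hm i ⟨hi1, hi2⟩
  rw [Int.floor_intCast, abs_le] at h1
  have h3 : f u ≤ f (H i) := hu' h2
  have h4 : f (H i) ≤ f v := hv' h2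
  constructor
  · have h5 : pA = pA := rfl
    have h6 := lp_le (pA := qA) (r := s0) R.δ0
    by_contra hcon
    push Not at hcon
    have h7 : q i + 1 ≤ ⌊(s0 - qA) / δ⌋ := hcon
    have h8 := lattice_le (pA := qA) R.δ0 h7
    push_cast at h8
    have := R.δ0
    linarith
  · rw [le_lp R.δ0]
    linarith

end Vale.Agent.P155.TLb
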