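import Vale.Agent.P155.U902.TL2

/-!
# P155, literal Q1, block TL, part 3: the range of the strand on the curve
-/

namespace Vale.Agent.P155.TLb

open Set

variable {e f : ℝ → ℝ} {a b pA qA δ ε : ℝ} {p q : ℤ → ℤ} {H : ℝ → ℝ} {xs xt : ℝ}

/-- on a compact set where `g > 0`, `g ≥ c > 0` -/
theorem exists_margin {g : ℝ → ℝ} (hg : Continuous g) {K : Set ℝ} (hK : IsCompact K)
    (h : ∀ x ∈ K, 0 < g x) : ∃ c : ℝ, 0 < c ∧ ∀ x ∈ K, c ≤ g x := by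
  rcases K.eq_empty_or_nonempty with h0 | h0
  · exact ⟨1, one_pos, fun x hx => by rw [h0] at hx; exact hx.elim⟩
  · obtain ⟨u, hu, hu'⟩ := hK.exists_isMinOn h0 hg.continuousOn
    exact ⟨g u, h u hu, fun x hx => hu' hx⟩

/-- the index `⌊x⌋` for `x` between two integers of `[xs, xt]` -/
theorem idx_mem {i0 i1 : ℤ} {x : ℝ} (h1 : (i0 : ℝ) ≤ x) (h2 : x ≤ i1) : i0 ≤ ⌊x⌋ ∧ ⌊x⌋ ≤ i1 := by
  refine ⟨Int.le_floor.2 h1, ?_⟩
  have : (⌊x⌋ : ℝ) ≤ i1 := (Int.floor_le x).trans h2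
  exact_mod_cast this

/-- (R1) -/
theorem range1 {r0 r0' r1' r1 α' α β β' : ℝ} (W : Win e a b r0 r0' r1' r1 α' α β β') {ε' : ℝ}
    (hε' : 0 < ε') :
    ∃ ε0 : ℝ, 0 < ε0 ∧ ∀ {pA qA δ ε : ℝ} {p q : ℤ → ℤ} {H : ℝ → ℝ} {xs xt : ℝ} {i0 i1 : ℤ},
      Run e f a b pA qA δ ε p q H xs xt → ε ≤ ε0 →
      IsStr p xs xt ⌊(r0 - pA) / δ⌋ ⌊(r1 - pA) / δ⌋ i0 i1 →
      ∀ x, xs ≤ x → x ≤ i1 → H x ≤ β' + ε' := by
  obtain ⟨z, hz1, hz2, hz3, hz4⟩ := W.exβ ε' hε'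
  refine ⟨(e z - r1) / 2, by linarith, ?_⟩
  intro pA qA δ ε p q H xs xt i0 i1 R hε T x hx1 hx2
  by_contra hcon
  push Not at hcon
  have haz : a < z := by
    have := W.o1
    have := W.o2
    have := W.o3
    have := W.o4
    linarith
  obtain ⟨x', hx', hHx'⟩ := intermediate_value_Icc hx1 R.Hc.continuousOn
    (show z ∈ Icc (H xs) (H x) from ⟨by rw [R.Hs]; exact haz.le, by linarith⟩)
  have h1 := R.pc x' ⟨hx'.1, hx'.2.trans (hx2.trans T.le)⟩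
  rw [hHx', abs_le] at h1
  have h2 : p ⌊x'⌋ ≤ ⌊(r1 - pA) / δ⌋ := by
    have h3 : ⌊xs⌋ ≤ ⌊x'⌋ := Int.floor_le_floor hx'.1
    have h4 : ⌊x'⌋ ≤ i1 := (idx_mem (i0 := ⌊xs⌋) ((Int.floor_le xs).trans hx'.1)
      (hx'.2.trans hx2)).2
    rcases h4.lt_or_eq with h | h
    · exact (T.lt1 _ h3 h).le
    · rw [h, T.e1]
  rw [le_lp R.δ0] at h2
  linarith [h1.1]

/-- (R2) -/
theorem range2 (he : Continuous e) {r0 r0' r1' r1 α' α β β' : ℝ}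
    (W : Win e a b r0 r0' r1' r1 α' α β β') {ε' : ℝ} (hε' : 0 < ε') :
    ∃ ε0 : ℝ, 0 < ε0 ∧ ∀ {pA qA δ ε : ℝ} {p q : ℤ → ℤ} {H : ℝ → ℝ} {xs xt : ℝ} {i0 i1 : ℤ},
      Run e f a b pA qA δ ε p q H xs xt → ε ≤ ε0 →
      IsStr p xs xt ⌊(r0 - pA) / δ⌋ ⌊(r1 - pA) / δ⌋ i0 i1 → β - ε' ≤ H i1 := by
  obtain ⟨c, hc, hc'⟩ := exists_margin (g := fun x => r1 - e x) (by fun_prop)
    (isCompact_Icc (a := a) (b := β - ε')) (fun x hx => by
      have := W.ltβ x hx.1 (by linarith [hx.2])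
      linarith)
  refine ⟨c / 3, by linarith, ?_⟩
  intro pA qA δ ε p q H xs xt i0 i1 R hε T
  by_contra hcon
  push Not at hcon
  have hi0 : xs ≤ i1 := T.ge.trans (by exact_mod_cast T.i01.le)
  have h1 := R.pc i1 ⟨hi0, T.le⟩
  rw [Int.floor_intCast, T.e1, abs_le] at h1
  have h2 := hc' (H i1) ⟨(R.Hm i1 ⟨hi0, T.le⟩).1, hcon.le⟩
  have h3 := lt_lp (pA := pA) (r := r1) R.δ0
  have h4 := R.δε
  linarith [h1.2]

/-- (R3) -/
theorem range3 (he : Continuous e) {r0 r0' r1' r1 α' α β β' : ℝ}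
    (W : Win e a b r0 r0' r1' r1 α' α β β') {ε' : ℝ} (hε' : 0 < ε') :
    ∃ ε0 : ℝ, 0 < ε0 ∧ ∀ {pA qA δ ε : ℝ} {p q : ℤ → ℤ} {H : ℝ → ℝ} {xs xt : ℝ} {i0 i1 : ℤ},
      Run e f a b pA qA δ ε p q H xs xt → ε ≤ ε0 →
      IsStr p xs xt ⌊(r0 - pA) / δ⌋ ⌊(r1 - pA) / δ⌋ i0 i1 →
      ∀ x : ℝ, (i0 : ℝ) ≤ x → x ≤ i1 → α' - ε' ≤ H x := by
  obtain ⟨z, hz1, hz2, hz3, hz4⟩ := W.exα ε' hε'
  have hβα : 0 < β - α' := by
    have := W.o2
    have := W.o3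
    linarith
  obtain ⟨ε1, hε1, h2'⟩ := range2 (f := f) he W hβα
  refine ⟨min ε1 ((r0 - e z) / 3), lt_min hε1 (by linarith), ?_⟩
  intro pA qA δ ε p q H xs xt i0 i1 R hε T x hx1 hx2
  have hε2 : ε ≤ (r0 - e z) / 3 := hε.trans (min_le_right _ _)
  have hε3 : ε ≤ ε1 := hε.trans (min_le_left _ _)
  by_contra hcon
  push Not at hcon
  have h0 := h2' R hε3 T
  obtain ⟨x', hx', hHx'⟩ := intermediate_value_Icc hx2 R.Hc.continuousOn
    (show z ∈ Icc (H x) (H i1) from ⟨by linarith, by linarith⟩)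
  have hmem : x' ∈ Icc xs xt := ⟨T.ge.trans (hx1.trans hx'.1), hx'.2.trans T.le⟩
  have h1 := R.pc x' hmem
  rw [hHx', abs_le] at h1
  have h2 : ⌊(r0 - pA) / δ⌋ ≤ p ⌊x'⌋ := by
    obtain ⟨h3, h4⟩ := idx_mem (hx1.trans hx'.1) hx'.2
    rcases h3.lt_or_eq with h | h
    · exact (T.gt0 _ h h4).le
    · rw [← h, T.e0]
  have h3 := lt_lp (pA := pA) (r := r0) R.δ0
  have h4 := lattice_le (pA := pA) R.δ0 h2
  have h5 := R.δε
  linarith [h1.2]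

/-- (R4) -/
theorem range4 (he : Continuous e) {r0 r0' r1' r1 α' α β β' : ℝ}
    (W : Win e a b r0 r0' r1' r1 α' α β β') {ε' : ℝ} (hε' : 0 < ε') :
    ∃ ε0 : ℝ, 0 < ε0 ∧ ∀ {pA qA δ ε : ℝ} {p q : ℤ → ℤ} {H : ℝ → ℝ} {xs xt : ℝ} {i0 i1 : ℤ},
      Run e f a b pA qA δ ε p q H xs xt → ε ≤ ε0 →
      IsStr p xs xt ⌊(r0 - pA) / δ⌋ ⌊(r1 - pA) / δ⌋ i0 i1 → H i0 ≤ α + ε' := by
  have hβ' : r1' < e β' := W.shβ β' W.o4 le_rfl
  have hopen : IsOpen (e ⁻¹' Ioi r1') := isOpen_Ioi.preimage he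
  obtain ⟨ρ, hρ, hball⟩ := Metric.isOpen_iff.1 hopen β' hβ'
  obtain ⟨c, hc, hc'⟩ := exists_margin (g := fun x => e x - r0) (by fun_prop)
    (isCompact_Icc (a := α + ε') (b := β' + ρ / 2)) (fun x hx => by
      have h1 := W.l0
      have h2 := W.l1
      rcases le_total x β with h | h
      · have := W.gtα x (by linarith [hx.1]) h
        linarith
      · rcases le_total x β' with h' | h'
        · have := W.shβ x h h'
          linarith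
        · have : x ∈ Metric.ball β' ρ := by
            rw [Metric.mem_ball, Real.dist_eq, abs_lt]
            constructor <;> linarith [hx.2]
          have h3 : r1' < e x := hball this
          linarith)
  obtain ⟨ε1, hε1, h1'⟩ := range1 (f := f) W (show 0 < ρ / 2 by linarith)
  refine ⟨min ε1 (c / 2), lt_min hε1 (by linarith), ?_⟩
  intro pA qA δ ε p q H xs xt i0 i1 R hε T
  have hε2 : ε ≤ c / 2 := hε.trans (min_le_right _ _)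
  have hε3 : ε ≤ ε1 := hε.trans (min_le_left _ _)
  by_contra hcon
  push Not at hcon
  have hi : (i0 : ℝ) ≤ i1 := by exact_mod_cast T.i01.le
  have h1 := h1' R hε3 T i0 T.ge hi
  have h2 := hc' (H i0) ⟨hcon.le, h1⟩
  have h3 := R.pc i0 ⟨T.ge, hi.trans T.le⟩
  rw [Int.floor_intCast, T.e0, abs_le] at h3
  have h4 := lp_le (pA := pA) (r := r0) R.δ0
  linarith [h3.1]

/-- everything on the range -/
theorem range (he : Continuous e) {r0 r0' r1' r1 α' α β β' : ℝ}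
    (W : Win e a b r0 r0' r1' r1 α' α β β') {ε' : ℝ} (hε' : 0 < ε') :
    ∃ ε0 : ℝ, 0 < ε0 ∧ ∀ {pA qA δ ε : ℝ} {p q : ℤ → ℤ} {H : ℝ → ℝ} {xs xt : ℝ} {i0 i1 : ℤ},
      Run e f a b pA qA δ ε p q H xs xt → ε ≤ ε0 →
      IsStr p xs xt ⌊(r0 - pA) / δ⌋ ⌊(r1 - pA) / δ⌋ i0 i1 →
      (∀ x : ℝ, (i0 : ℝ) ≤ x → x ≤ i1 → α' - ε' ≤ H x ∧ H x ≤ β' + ε') ∧
      H i0 ≤ α + ε' ∧ β - ε' ≤ H i1 := by
  obtain ⟨ε1, hε1, h1⟩ := range1 (f := f) W hε'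
  obtain ⟨ε2, hε2, h2⟩ := range2 (f := f) he W hε'
  obtain ⟨ε3, hε3, h3⟩ := range3 (f := f) he W hε'
  obtain ⟨ε4, hε4, h4⟩ := range4 (f := f) he W hε'
  refine ⟨min (min ε1 ε2) (min ε3 ε4), lt_min (lt_min hε1 hε2) (lt_min hε3 hε4), ?_⟩
  intro pA qA δ ε p q H xs xt i0 i1 R hε T
  have e1 : ε ≤ ε1 := hε.trans ((min_le_left _ _).trans (min_le_left _ _))
  have e2 : ε ≤ ε2 := hε.trans ((min_le_left _ _).trans (min_le_right _ _))
  have e3 : ε ≤ ε3 := hε.trans ((min_le_right _ _).trans (min_le_left _ _))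
  have e4 : ε ≤ ε4 := hε.trans ((min_le_right _ _).trans (min_le_right _ _))
  exact ⟨fun x hx1 hx2 => ⟨h3 R e3 T x hx1 hx2, h1 R e1 T x (T.ge.trans hx1) hx2⟩,
    h4 R e4 T, h2 R e2 T⟩

/-- a subinterval on which a continuous function goes from `v1` to `v2` and stays between -/
theorem subinterval {H : ℝ → ℝ} (hH : Continuous H) {c d v1 v2 : ℝ} (hcd : c ≤ d) (hv : v1 < v2)
    (h1 : H c ≤ v1) (h2 : v2 ≤ H d) :
    ∃ x1 x2, c ≤ x1 ∧ x1 ≤ x2 ∧ x2 ≤ d ∧ H x1 = v1 ∧ H x2 = v2 ∧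
      ∀ x ∈ Icc x1 x2, H x ∈ Icc v1 v2 := by
  -- first time above `v2`
  set S : Set ℝ := Icc c d ∩ H ⁻¹' Ici v2 with hS
  have hSc : IsCompact S := isCompact_Icc.inter_right (isClosed_Ici.preimage hH)
  have hSne : S.Nonempty := ⟨d, ⟨hcd, le_rfl⟩, h2⟩
  have hx2 := hSc.sInf_mem hSne
  set x2 := sInf S
  have hlt : ∀ x, c ≤ x → x < x2 → H x < v2 := by
    intro x hx hxx
    by_contra h
    push Not at h
    have : x ∈ S := ⟨⟨hx, hxx.le.trans hx2.1.2⟩, h⟩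
    have := csInf_le hSc.bddBelow this
    linarith
  have hH2 : H x2 = v2 := by
    apply le_antisymm _ hx2.2
    by_contra h
    push Not at h
    obtain ⟨x, hx, hxv⟩ := intermediate_value_Icc hx2.1.1 hH.continuousOn
      (show v2 ∈ Icc (H c) (H x2) from ⟨by linarith, h.le⟩)
    rcases hx.2.lt_or_eq with h' | h'
    · have := hlt x hx.1 h'
      linarith
    · rw [h'] at hxv
      linarith
  set S' : Set ℝ := Icc c x2 ∩ H ⁻¹' Iic v1 with hS'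
  have hSc' : IsCompact S' := isCompact_Icc.inter_right (isClosed_Iic.preimage hH)
  have hSne' : S'.Nonempty := ⟨c, ⟨le_rfl, hx2.1.1⟩, h1⟩
  have hx1 := hSc'.sSup_mem hSne'
  set x1 := sSup S'
  have hgt : ∀ x, x1 < x → x ≤ x2 → v1 < H x := by
    intro x hx hxx
    by_contra h
    push Not at h
    have : x ∈ S' := ⟨⟨hx1.1.1.trans hx.le, hxx⟩, h⟩
    have := le_csSup hSc'.bddAbove this
    linarith
  have hH1 : H x1 = v1 := by
    apply le_antisymm hx1.2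
    by_contra h
    push Not at h
    obtain ⟨x, hx, hxv⟩ := intermediate_value_Icc hx1.1.2 hH.continuousOn
      (show v1 ∈ Icc (H x1) (H x2) from ⟨h.le, by rw [hH2]; exact hv.le⟩)
    rcases hx.1.lt_or_eq with h' | h'
    · have := hgt x h' hx.2
      linarith
    · rw [← h'] at hxv
      linarith
  refine ⟨x1, x2, hx1.1.1, hx1.1.2, hx2.1.2, hH1, hH2, fun x hx => ⟨?_, ?_⟩⟩
  · rcases hx.1.lt_or_eq with h' | h'
    · exact (hgt x h' hx.2).le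
    · rw [← h', hH1]
  · rcases hx.2.lt_or_eq with h' | h'
    · exact (hlt x (hx1.1.1.trans hx.1) h').le
    · rw [h', hH2]

end Vale.Agent.P155.TLb
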