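import Vale.Agent.P155.U902.TL3

/-!
# P155, literal Q1, block TL, part 4: the tops
-/

namespace Vale.Agent.P155.TLb

open Set

variable {e f : ℝ → ℝ} {a b pA qA δ ε : ℝ} {p q : ℤ → ℤ} {H : ℝ → ℝ} {xs xt : ℝ}

/-- highest edge of the lattice path in the column `X`, indices `l, …, l + m` -/
noncomputable def tp (p q : ℤ → ℤ) (l : ℤ) (m : ℕ) (X : ℤ) : ℤ :=
  sSup {Y : ℤ | ∃ i : ℕ, i < m ∧ q (l + i) = Y ∧ q (l + i + 1) = Y ∧
    min (p (l + i)) (p (l + i + 1)) = X ∧ max (p (l + i)) (p (l + i + 1)) = X + 1}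

/-- `i` is an edge in the column `X` -/
def EdgeAt (p : ℤ → ℤ) (X i : ℤ) : Prop :=
  min (p i) (p (i + 1)) = X ∧ max (p i) (p (i + 1)) = X + 1

theorem EdgeAt.q_eq {X i : ℤ} (h : EdgeAt p X i)
    (hs : |p (i + 1) - p i| + |q (i + 1) - q i| = 1) : q (i + 1) = q i := by
  obtain ⟨h1, h2⟩ := h
  have h3 : |p (i + 1) - p i| = 1 := by
    rcases le_total (p i) (p (i + 1)) with h | h
    · rw [min_eq_left h] at h1
      rw [max_eq_right h] at h2
      rw [abs_of_nonneg (by omega)]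
      omega
    · rw [min_eq_right h] at h1
      rw [max_eq_left h] at h2
      rw [abs_of_nonpos (by omega)]
      omega
  have h4 : |q (i + 1) - q i| = 0 := by omega
  rw [abs_eq_zero] at h4
  omega

theorem EdgeAt.mem {X i : ℤ} (h : EdgeAt p X i) : X ≤ p i ∧ p i ≤ X + 1 := by
  obtain ⟨h1, h2⟩ := h
  constructor
  · rw [← h1]
    exact min_le_left _ _
  · rw [← h2]
    exact le_max_left _ _

theorem tp_isGreatest (hs : ∀ l, |p (l + 1) - p l| + |q (l + 1) - q l| = 1) {i0 i1 X : ℤ}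
    (hne : ∃ i, i0 ≤ i ∧ i < i1 ∧ EdgeAt p X i) :
    (∃ i, i0 ≤ i ∧ i < i1 ∧ EdgeAt p X i ∧ q i = tp p q i0 (i1 - i0).toNat X) ∧
      ∀ i, i0 ≤ i → i < i1 → EdgeAt p X i → q i ≤ tp p q i0 (i1 - i0).toNat X := by
  have hset : {Y : ℤ | ∃ i : ℕ, i < (i1 - i0).toNat ∧ q (i0 + i) = Y ∧ q (i0 + i + 1) = Y ∧
      min (p (i0 + i)) (p (i0 + i + 1)) = X ∧ max (p (i0 + i)) (p (i0 + i + 1)) = X + 1} =
      {Y : ℤ | ∃ i, i0 ≤ i ∧ i < i1 ∧ EdgeAt p X i ∧ q i = Y} := by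
    ext Y
    constructor
    · rintro ⟨i, h1, h2, h3, h4, h5⟩
      exact ⟨i0 + i, by omega, by omega, ⟨h4, h5⟩, h2⟩
    · rintro ⟨i, h1, h2, h3, h4⟩
      refine ⟨(i - i0).toNat, by omega, ?_, ?_, ?_, ?_⟩
      all_goals
        have h5 : i0 + ((i - i0).toNat : ℤ) = i := by omega
        rw [h5]
      · exact h4
      · rw [h3.q_eq (hs i), h4]
      · exact h3.1
      · exact h3.2
  have hfin : {Y : ℤ | ∃ i, i0 ≤ i ∧ i < i1 ∧ EdgeAt p X i ∧ q i = Y}.Finite := by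
    refine ((Set.finite_Ico i0 i1).image q).subset ?_
    rintro Y ⟨i, h1, h2, _, h4⟩
    exact ⟨i, ⟨h1, h2⟩, h4⟩
  have hne' : {Y : ℤ | ∃ i, i0 ≤ i ∧ i < i1 ∧ EdgeAt p X i ∧ q i = Y}.Nonempty := by
    obtain ⟨i, h1, h2, h3⟩ := hne
    exact ⟨q i, i, h1, h2, h3, rfl⟩
  unfold tp
  rw [hset]
  constructor
  · exact Int.csSup_mem hne' hfin.bddAbove
  · intro i h1 h2 h3
    exact le_csSup hfin.bddAbove ⟨i, h1, h2, h3, rfl⟩

/-- top of the curve over `x` -/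
noncomputable def tau (e f : ℝ → ℝ) (α β x : ℝ) : ℝ := sSup (f '' {u | u ∈ Icc α β ∧ e u = x})

theorem compact_level (he : Continuous e) {α β x : ℝ} : IsCompact {u | u ∈ Icc α β ∧ e u = x} :=
  isCompact_Icc.inter_right (isClosed_singleton.preimage he)

theorem tau_ge (he : Continuous e) (hf : Continuous f) {α β x u : ℝ} (hu : u ∈ Icc α β)
    (hux : e u = x) : f u ≤ tau e f α β x :=
  le_csSup ((compact_level he).image hf).bddAbove ⟨u, ⟨hu, hux⟩, rfl⟩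

theorem tau_mem (he : Continuous e) (hf : Continuous f) {α β x : ℝ} (hαβ : α ≤ β)
    (h1 : e α ≤ x) (h2 : x ≤ e β) : ∃ u ∈ Icc α β, e u = x ∧ f u = tau e f α β x := by
  have hne : {u | u ∈ Icc α β ∧ e u = x}.Nonempty := by
    obtain ⟨u, hu, hux⟩ := intermediate_value_Icc hαβ he.continuousOn (show x ∈ Icc _ _ from
      ⟨h1, h2⟩)
    exact ⟨u, hu, hux⟩
  obtain ⟨u, ⟨hu, hux⟩, hfu⟩ := ((compact_level he).image hf).sSup_mem (hne.image f)
  exact ⟨u, hu, hux, hfu⟩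

theorem col_near {pA δ x : ℝ} (hδ : 0 < δ) {n : ℤ} (h1 : ⌊(x - pA) / δ⌋ ≤ n)
    (h2 : n ≤ ⌊(x - pA) / δ⌋ + 1) : |pA + δ * n - x| ≤ δ := by
  have k1 := lp_le (pA := pA) (r := x) hδ
  have k2 := lt_lp (pA := pA) (r := x) hδ
  have k3 := lattice_le (pA := pA) hδ h1
  have k4 := lattice_le (pA := pA) hδ h2
  push_cast at k4
  rw [abs_le]
  constructor <;> linarith

/-- upper bound for the tops -/
theorem top_upper (he : Continuous e) (hf : Continuous f) {r0 r0' r1' r1 α' α β β' : ℝ}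
    (W : Win e a b r0 r0' r1' r1 α' α β β') {x : ℝ} (hx0 : r0' < x) (hx1 : x < r1') {η : ℝ}
    (hη : 0 < η) :
    ∃ ε0 : ℝ, 0 < ε0 ∧ ∀ {pA qA δ ε : ℝ} {p q : ℤ → ℤ} {H : ℝ → ℝ} {xs xt : ℝ} {i0 i1 : ℤ},
      Run e f a b pA qA δ ε p q H xs xt → ε ≤ ε0 →
      IsStr p xs xt ⌊(r0 - pA) / δ⌋ ⌊(r1 - pA) / δ⌋ i0 i1 →
      ∀ i, i0 ≤ i → i < i1 → EdgeAt p ⌊(x - pA) / δ⌋ i → qA + δ * q i ≤ tau e f α β x + η := by
  set τ := tau e f α β x with hτ
  -- the function measuring the distance to the level set over `[α', β']`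
  obtain ⟨c, hc, hc'⟩ := exists_margin (g := fun u => max |e u - x| (max (α' - u) (u - β')))
    (by fun_prop) (K := Icc a b ∩ f ⁻¹' Ici (τ + η / 2))
    (isCompact_Icc.inter_right (isClosed_Ici.preimage hf)) (fun u hu => by
      by_contra hcon
      push Not at hcon
      have h1 : |e u - x| ≤ 0 := (le_max_left _ _).trans hcon
      have h2 : α' - u ≤ 0 := (le_max_left _ _).trans ((le_max_right _ _).trans hcon)
      have h3 : u - β' ≤ 0 := (le_max_right _ _).trans ((le_max_right _ _).trans hcon)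
      have h4 : e u = x := by
        have := abs_eq_zero.1 (le_antisymm h1 (abs_nonneg _))
        linarith
      have h5 : α ≤ u := by
        by_contra h
        push Not at h
        have := W.shα u (by linarith) h.le
        linarith
      have h6 : u ≤ β := by
        by_contra h
        push Not at h
        have := W.shβ u h.le (by linarith)
        linarith
      have h7 := tau_ge he hf ⟨h5, h6⟩ h4
      have h8 : τ + η / 2 ≤ f u := hu.2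
      linarith)
  obtain ⟨ε1, hε1, h1'⟩ := range (f := f) he W (show 0 < c / 2 by linarith)
  refine ⟨min (min ε1 (c / 4)) (η / 4), lt_min (lt_min hε1 (by linarith)) (by linarith), ?_⟩
  intro pA qA δ ε p q H xs xt i0 i1 R hε T i hi0 hi1 hE
  have e1 : ε ≤ ε1 := hε.trans ((min_le_left _ _).trans (min_le_left _ _))
  have e2 : ε ≤ c / 4 := hε.trans ((min_le_left _ _).trans (min_le_right _ _))
  have e3 : ε ≤ η / 4 := hε.trans (min_le_right _ _)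
  by_contra hcon
  push Not at hcon
  have hi0' : (i0 : ℝ) ≤ i := by exact_mod_cast hi0
  have hi1' : (i : ℝ) ≤ i1 := by exact_mod_cast hi1.le
  have hmem : (i : ℝ) ∈ Icc xs xt := ⟨T.ge.trans hi0', hi1'.trans T.le⟩
  have h1 := R.pc i hmem
  have h2 := R.qc i hmem
  have h3 := R.Hm i hmem
  rw [Int.floor_intCast] at h1 h2
  obtain ⟨h4, h5⟩ := (h1' R e1 T).1 i hi0' hi1'
  have h6 : |pA + δ * p i - x| ≤ δ := col_near R.δ0 hE.mem.1 hE.mem.2
  have h7 : |e (H i) - x| ≤ 2 * ε := by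
    have := R.δε
    rw [abs_le] at h1 h6 ⊢
    constructor <;> linarith [h1.1, h1.2, h6.1, h6.2]
  rw [abs_le] at h2
  have h8 := hc' (H i) ⟨h3, by
    show τ + η / 2 ≤ f (H i)
    linarith [h2.1, h2.2]⟩
  have h9 : max |e (H i) - x| (max (α' - H i) (H i - β')) ≤ c / 2 := by
    refine max_le (by linarith) (max_le ?_ ?_) <;> linarith
  have h10 := h8.trans h9
  linarith

/-- lower bound for the tops -/
theorem top_lower (he : Continuous e) (hf : Continuous f) {r0 r0' r1' r1 α' α β β' : ℝ}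
    (W : Win e a b r0 r0' r1' r1 α' α β β') {x : ℝ} (hx0 : r0' < x) (hx1 : x < r1')
    (hreg : Reg e x) {η : ℝ} (hη : 0 < η) :
    ∃ ε0 : ℝ, 0 < ε0 ∧ ∀ {pA qA δ ε : ℝ} {p q : ℤ → ℤ} {H : ℝ → ℝ} {xs xt : ℝ} {i0 i1 : ℤ},
      Run e f a b pA qA δ ε p q H xs xt → ε ≤ ε0 →
      IsStr p xs xt ⌊(r0 - pA) / δ⌋ ⌊(r1 - pA) / δ⌋ i0 i1 →
      ∃ i, i0 ≤ i ∧ i < i1 ∧ EdgeAt p ⌊(x - pA) / δ⌋ i ∧ tau e f α β x - η ≤ qA + δ * q i := by
  have hl0 := W.l0
  have hl2 := W.l2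
  obtain ⟨u, hu, hux, hfu⟩ := tau_mem (x := x) he hf W.o3.le
    (by rw [W.eα]; linarith) (by rw [W.eβ]; linarith)
  have huα : α < u := by
    rcases hu.1.lt_or_eq with h | h
    · exact h
    · exfalso
      rw [← h, W.eα] at hux
      linarith
  have huβ : u < β := by
    rcases hu.2.lt_or_eq with h | h
    · exact h
    · exfalso
      rw [h, W.eβ] at hux
      linarith
  obtain ⟨ρ0, hρ0, hρf⟩ := Metric.continuous_iff.1 hf u (η / 2) (by linarith)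
  set ρ : ℝ := min ρ0 (min ((u - α) / 2) ((β - u) / 2)) with hρ
  have hρpos : 0 < ρ := lt_min hρ0 (lt_min (by linarith) (by linarith))
  have ρ1 : ρ ≤ ρ0 := min_le_left _ _
  have ρ2 : ρ ≤ (u - α) / 2 := (min_le_right _ _).trans (min_le_left _ _)
  have ρ3 : ρ ≤ (β - u) / 2 := (min_le_right _ _).trans (min_le_right _ _)
  obtain ⟨⟨u1, hu1, heu1⟩, ⟨u2, hu2, heu2⟩⟩ := hreg u hux ρ hρpos
  rw [abs_lt] at hu1 hu2
  set v1 := min u1 u2 with hv1
  set v2 := max u1 u2 with hv2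
  have hne : u1 ≠ u2 := by
    rintro rfl
    linarith
  have hv12 : v1 < v2 := min_lt_max.2 hne
  have hv1' : u - ρ < v1 := lt_min (by linarith) (by linarith)
  have hv2' : v2 < u + ρ := max_lt (by linarith) (by linarith)
  obtain ⟨ε1, hε1, h1'⟩ := range (f := f) he W (show 0 < ρ by linarith)
  set c : ℝ := min (x - e u1) (e u2 - x) with hc
  have hcpos : 0 < c := lt_min (by linarith) (by linarith)
  have hcle1 : c ≤ x - e u1 := min_le_left _ _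
  have hcle2 : c ≤ e u2 - x := min_le_right _ _
  refine ⟨min (min ε1 (c / 2)) (η / 4), lt_min (lt_min hε1 (by linarith)) (by linarith), ?_⟩
  intro pA qA δ ε p q H xs xt i0 i1 R hε T
  have e1 : ε ≤ ε1 := hε.trans ((min_le_left _ _).trans (min_le_left _ _))
  have e2 : ε ≤ c / 2 := hε.trans ((min_le_left _ _).trans (min_le_right _ _))
  have e3 : ε ≤ η / 4 := hε.trans (min_le_right _ _)
  obtain ⟨_, hH0, hH1⟩ := h1' R e1 T
  have hi01 : (i0 : ℝ) ≤ i1 := by exact_mod_cast T.i01.le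
  obtain ⟨x1, x2, g1, g2, g3, g4, g5, g6⟩ := subinterval R.Hc hi01 hv12
    (by linarith) (by linarith)
  -- the two indices
  have m1 : x1 ∈ Icc xs xt := ⟨T.ge.trans g1, (g2.trans g3).trans T.le⟩
  have m2 : x2 ∈ Icc xs xt := ⟨T.ge.trans (g1.trans g2), g3.trans T.le⟩
  have p1 := R.pc x1 m1
  have p2 := R.pc x2 m2
  rw [g4] at p1
  rw [g5] at p2
  have hle : ∀ n : ℤ, |pA + δ * n - e u1| ≤ ε → n ≤ ⌊(x - pA) / δ⌋ := by
    intro n hn
    rw [abs_le] at hn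
    rw [le_lp R.δ0]
    linarith [hn.2]
  have hgt : ∀ n : ℤ, |pA + δ * n - e u2| ≤ ε → ⌊(x - pA) / δ⌋ < n := by
    intro n hn
    rw [abs_le] at hn
    rw [lp_lt R.δ0]
    linarith [hn.1]
  have hcr : (p ⌊x1⌋ ≤ ⌊(x - pA) / δ⌋ ∧ ⌊(x - pA) / δ⌋ < p ⌊x2⌋) ∨
      (⌊(x - pA) / δ⌋ < p ⌊x1⌋ ∧ p ⌊x2⌋ ≤ ⌊(x - pA) / δ⌋) := by
    rcases le_total u1 u2 with h | h
    · left
      rw [hv1, min_eq_left h] at p1
      rw [hv2, max_eq_right h] at p2
      exact ⟨hle _ p1, hgt _ p2⟩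
    · right
      rw [hv1, min_eq_right h] at p1
      rw [hv2, max_eq_left h] at p2
      exact ⟨hgt _ p1, hle _ p2⟩
  obtain ⟨i, hi1, hi2, hE1, hE2⟩ := cross_idx R.stepp (Int.floor_le_floor g2) hcr
  have hj1 := (idx_mem g1 (g2.trans g3)).1
  have hj2 := (idx_mem (g1.trans g2) g3).2
  refine ⟨i, by omega, by omega, ⟨hE1, hE2⟩, ?_⟩
  -- a time with index `i` in `[x1, x2]`
  obtain ⟨y, hy1, hy2, hyi⟩ : ∃ y, x1 ≤ y ∧ y ≤ x2 ∧ ⌊y⌋ = i := by
    rcases hi1.lt_or_eq with h | h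
    · refine ⟨i, ?_, ?_, Int.floor_intCast i⟩
      · have h3 : ⌊x1⌋ + 1 ≤ i := h
        have h4 : ((⌊x1⌋ + 1 : ℤ) : ℝ) ≤ i := by exact_mod_cast h3
        have := Int.lt_floor_add_one x1
        push_cast at h4
        linarith
      · have h4 : (i : ℝ) ≤ ⌊x2⌋ := by exact_mod_cast hi2.le
        exact h4.trans (Int.floor_le x2)
    · exact ⟨x1, le_rfl, g2, h⟩
  have hq := R.qc y ⟨m1.1.trans hy1, hy2.trans m2.2⟩
  rw [hyi, abs_le] at hq
  have hHy := g6 y ⟨hy1, hy2⟩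
  have hf1 := hρf (H y) (by
    rw [Real.dist_eq, abs_lt]
    constructor <;> linarith [hHy.1, hHy.2])
  rw [Real.dist_eq, abs_lt] at hf1
  rw [← hfu]
  linarith [hf1.1, hq.1]

/-- the tops converge -/
theorem top_close (he : Continuous e) (hf : Continuous f) {r0 r0' r1' r1 α' α β β' : ℝ}
    (W : Win e a b r0 r0' r1' r1 α' α β β') {x : ℝ} (hx0 : r0' < x) (hx1 : x < r1')
    (hreg : Reg e x) {η : ℝ} (hη : 0 < η) :
    ∃ ε0 : ℝ, 0 < ε0 ∧ ∀ {pA qA δ ε : ℝ} {p q : ℤ → ℤ} {H : ℝ → ℝ} {xs xt : ℝ} {i0 i1 : ℤ},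
      Run e f a b pA qA δ ε p q H xs xt → ε ≤ ε0 →
      IsStr p xs xt ⌊(r0 - pA) / δ⌋ ⌊(r1 - pA) / δ⌋ i0 i1 →
      |qA + δ * tp p q i0 (i1 - i0).toNat ⌊(x - pA) / δ⌋ - tau e f α β x| ≤ η := by
  obtain ⟨ε1, hε1, h1⟩ := top_upper he hf W hx0 hx1 hη
  obtain ⟨ε2, hε2, h2⟩ := top_lower he hf W hx0 hx1 hreg hη
  refine ⟨min ε1 ε2, lt_min hε1 hε2, ?_⟩
  intro pA qA δ ε p q H xs xt i0 i1 R hε T
  obtain ⟨i, hi0, hi1, hE, hq⟩ := h2 R (hε.trans (min_le_right _ _)) T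
  obtain ⟨⟨j, hj0, hj1, hjE, hjq⟩, hmax⟩ := tp_isGreatest (q := q) R.step ⟨i, hi0, hi1, hE⟩
  have h3 := h1 R (hε.trans (min_le_left _ _)) T j hj0 hj1 hjE
  have h4 := lattice_le (pA := qA) R.δ0 (hmax i hi0 hi1 hE)
  rw [hjq] at h3
  rw [abs_le]
  constructor <;> linarith

/-- the tops are between the lowest and the highest row -/
theorem top_mem {p0 p1 i0 i1 X q0 q1 : ℤ} {xs xt : ℝ}
    (hs : ∀ l, |p (l + 1) - p l| + |q (l + 1) - q l| = 1) (T : IsStr p xs xt p0 p1 i0 i1)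
    (hq : ∀ i, i0 ≤ i → i ≤ i1 → q0 ≤ q i ∧ q i ≤ q1) (h1 : p0 ≤ X) (h2 : X < p1) :
    q0 ≤ tp p q i0 (i1 - i0).toNat X ∧ tp p q i0 (i1 - i0).toNat X ≤ q1 := by
  have hstep : ∀ l, |p (l + 1) - p l| ≤ 1 := by
    intro l
    have h3 := hs l
    have := abs_nonneg (q (l + 1) - q l)
    omega
  obtain ⟨i, hi1, hi2, hE1, hE2⟩ := cross_idx (X := X) hstep T.i01.le
    (Or.inl ⟨by rw [T.e0]; exact h1, by rw [T.e1]; exact h2⟩)
  obtain ⟨⟨j, hj0, hj1, hjE, hjq⟩, _⟩ := tp_isGreatest (q := q) hs ⟨i, hi1, hi2, hE1, hE2⟩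
  rw [← hjq]
  exact hq j hj0 hj1.le

end Vale.Agent.P155.TLb
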