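import Vale.Agent.P155.U902.TL4
import Vale.Agent.P155.H878.DetIface

/-!
# P155, literal Q1, block TL, part 5: paths following a curve
-/

namespace Vale.Agent.P155.TLb

open Set Filter Topology Vale.Agent.P155 Vale.Agent.P155.Q1

/-! ## The two directions -/

structure DirOK (d : Dir) : Prop where
  Pc : Continuous d.P
  Qc : Continuous d.Q
  Pd : ∀ z w, |d.P z - d.P w| ≤ dist z w
  Qd : ∀ z w, |d.Q z - d.Q w| ≤ dist z w
  Ppt : ∀ δ A v, d.P (Q1.pt δ A v) = d.P A + δ * d.p v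
  Qpt : ∀ δ A v, d.Q (Q1.pt δ A v) = d.Q A + δ * d.q v
  adj : ∀ u v, Adj u v → |d.p v - d.p u| + |d.q v - d.q u| = 1

theorem pt_re (δ : ℝ) (A : ℂ) (v : Pt) : (Q1.pt δ A v).re = A.re + δ * v.1 := by
  simp [Q1.pt]

theorem pt_im (δ : ℝ) (A : ℂ) (v : Pt) : (Q1.pt δ A v).im = A.im + δ * v.2 := by
  simp [Q1.pt]

theorem re_dist (z w : ℂ) : |z.re - w.re| ≤ dist z w := by
  rw [← Complex.sub_re, Complex.dist_eq]
  exact Complex.abs_re_le_norm _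

theorem im_dist (z w : ℂ) : |z.im - w.im| ≤ dist z w := by
  rw [← Complex.sub_im, Complex.dist_eq]
  exact Complex.abs_im_le_norm _

theorem adj1 {u v : Pt} (h : Adj u v) : |v.1 - u.1| + |v.2 - u.2| = 1 := by
  unfold Adj at h
  rw [abs_sub_comm v.1, abs_sub_comm v.2]
  exact h

theorem dirOK_hor : DirOK hor where
  Pc := Complex.continuous_re
  Qc := Complex.continuous_im
  Pd := re_dist
  Qd := im_dist
  Ppt := pt_re
  Qpt := pt_im
  adj := fun _ _ h => adj1 h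

theorem dirOK_ver : DirOK ver where
  Pc := Complex.continuous_im
  Qc := Complex.continuous_re
  Pd := im_dist
  Qd := re_dist
  Ppt := pt_im
  Qpt := pt_re
  adj := fun _ _ h => by
    have := adj1 h
    simp only [ver]
    omega

theorem dirOK {d : Dir} (h : d = hor ∨ d = ver) : DirOK d := by
  rcases h with rfl | rfl
  · exact dirOK_hor
  · exact dirOK_ver

theorem dist_pt_adj {δ : ℝ} (hδ : 0 < δ) (A : ℂ) {u v : Pt} (h : Adj u v) :
    ‖Q1.pt δ A v - Q1.pt δ A u‖ ≤ δ := by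
  have h1 := adj1 h
  refine (Complex.norm_le_abs_re_add_abs_im _).trans ?_
  rw [Complex.sub_re, Complex.sub_im, pt_re, pt_re, pt_im, pt_im]
  have h2 : A.re + δ * v.1 - (A.re + δ * u.1) = δ * ((v.1 - u.1 : ℤ) : ℝ) := by
    push_cast
    ring
  have h3 : A.im + δ * v.2 - (A.im + δ * u.2) = δ * ((v.2 - u.2 : ℤ) : ℝ) := by
    push_cast
    ring
  rw [h2, h3, abs_mul, abs_mul, abs_of_pos hδ, ← mul_add]
  have h4 : |((v.1 - u.1 : ℤ) : ℝ)| + |((v.2 - u.2 : ℤ) : ℝ)| = 1 := by exact_mod_cast h1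
  rw [h4, mul_one]

theorem dist_poly {δ : ℝ} (hδ : 0 < δ) (A : ℂ) {y : ℤ → Pt} (h : ∀ l, Adj (y l) (y (l + 1)))
    (x : ℝ) : dist (Q1.pt δ A (y ⌊x⌋)) (poly (fun l => Q1.pt δ A (y l)) x) ≤ δ := by
  unfold poly
  rw [dist_eq_norm, sub_add_cancel_left, norm_neg, norm_mul]
  have h1 : ‖((x - ⌊x⌋ : ℝ) : ℂ)‖ ≤ 1 := by
    rw [Complex.norm_real, Real.norm_eq_abs, abs_le]
    have := Int.floor_le x
    have := Int.lt_floor_add_one x
    constructor <;> linarith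
  have h2 := dist_pt_adj hδ A (h ⌊x⌋)
  calc _ ≤ 1 * δ := mul_le_mul h1 h2 (norm_nonneg _) zero_le_one
    _ = δ := one_mul _

/-- From `Follow` to `Run`. -/
theorem run_of_follow {d : Dir} (hd : DirOK d) {K : ℝ → ℂ} {a b : ℝ} {δ : ℕ → ℝ} {A : ℕ → ℂ}
    (hδ : ∀ j, 0 < δ j) (hδ0 : Tendsto δ atTop (𝓝 0)) {y : ℕ → ℤ → Pt} {g : ℝ → ℝ} {s t : ℝ}
    {θ : ℕ → ℝ → ℝ} (F : Follow K a b δ A y g s t θ) (hs : g s = a) (ht : g t = b)
    {xs xt : ℕ → ℝ} (hxs : ∀ j, θ j (xs j) = s) (hxt : ∀ j, θ j (xt j) = t) {ε : ℝ} (hε : 0 < ε) :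
    ∀ᶠ j in atTop, Run (fun x => d.P (K x)) (fun x => d.Q (K x)) a b (d.P (A j)) (d.Q (A j)) (δ j) ε
      (fun l => d.p (y j l)) (fun l => d.q (y j l)) (fun x => g (θ j x)) (xs j) (xt j) := by
  have h1 : ∀ᶠ j in atTop, δ j < ε / 2 :=
    (tendsto_order.1 hδ0).2 (ε / 2) (by linarith)
  filter_upwards [h1, F.close (ε / 2) (by linarith)] with j hj hcl
  have hmem : ∀ x ∈ Icc (xs j) (xt j), θ j x ∈ Icc s t := by
    intro x hx
    rw [← hxs j, ← hxt j]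
    exact ⟨(F.mono j).monotone hx.1, (F.mono j).monotone hx.2⟩
  have hd1 : ∀ x ∈ Icc (xs j) (xt j), dist (Q1.pt (δ j) (A j) (y j ⌊x⌋)) (K (g (θ j x))) ≤ ε := by
    intro x hx
    have h2 := dist_poly (hδ j) (A j) (F.adj j) x
    have h3 := hcl x (hmem x hx)
    have h4 := dist_triangle (Q1.pt (δ j) (A j) (y j ⌊x⌋))
      (poly (fun l => Q1.pt (δ j) (A j) (y j l)) x) (K (g (θ j x)))
    linarith
  refine ⟨hδ j, by linarith, fun l => hd.adj _ _ (F.adj j l), ?_, F.gc.comp (F.cont j),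
    fun x hx => F.gmem _ (hmem x hx), ?_, ?_, ?_, ?_⟩
  · rw [← (F.mono j).le_iff_le, hxs, hxt]
    exact F.st.le
  · simp only [hxs, hs]
  · simp only [hxt, ht]
  · intro x hx
    have := (hd.Pd _ _).trans (hd1 x hx)
    rw [hd.Ppt] at this
    exact this
  · intro x hx
    have := (hd.Qd _ _).trans (hd1 x hx)
    rw [hd.Qpt] at this
    exact this

/-! ## One family -/

/-- the conclusion for one family of paths -/
def One (d : Dir) (K : ℝ → ℂ) (a b : ℝ) (r0 r0' r1' r1 s0 s1 : ℝ) (τ : ℝ → ℝ) : Prop :=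
  ∀ (δ : ℕ → ℝ) (A : ℕ → ℂ), (∀ j, 0 < δ j) → Tendsto δ atTop (𝓝 0) →
    ∀ y g s t θ, Follow K a b δ A y g s t θ → ∃ (l : ℕ → ℤ) (m : ℕ → ℕ),
    (∀ᶠ j in atTop,
      StrandY d.p d.q (y j) (d.lp (δ j) (A j) r0) (d.lp (δ j) (A j) r1) (d.lq (δ j) (A j) s0)
        (d.lq (δ j) (A j) s1) (l j) (m j) ∧ s ≤ θ j (l j) ∧ θ j (l j + m j) ≤ t ∧
      ∀ X, d.lp (δ j) (A j) r0 ≤ X → X < d.lp (δ j) (A j) r1 →
        d.lq (δ j) (A j) s0 ≤ topY d.p d.q (y j) (l j) (m j) X ∧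
        topY d.p d.q (y j) (l j) (m j) X ≤ d.lq (δ j) (A j) s1) ∧
    ∀ x, r0' < x → x < r1' → Reg (fun u => d.P (K u)) x →
      Tendsto (fun j => d.Q (A j) + δ j * topY d.p d.q (y j) (l j) (m j)
        ⌊(x - d.P (A j)) / δ j⌋) atTop (𝓝 (τ x))

/-- the same for one direction of the time -/
def OneUp (d : Dir) (K : ℝ → ℂ) (a b : ℝ) (r0 r0' r1' r1 s0 s1 : ℝ) (τ : ℝ → ℝ) : Prop :=
  ∀ (δ : ℕ → ℝ) (A : ℕ → ℂ), (∀ j, 0 < δ j) → Tendsto δ atTop (𝓝 0) →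
    ∀ y g s t θ, Follow K a b δ A y g s t θ → g s = a → g t = b → ∃ (l : ℕ → ℤ) (m : ℕ → ℕ),
    (∀ᶠ j in atTop,
      StrandY d.p d.q (y j) (d.lp (δ j) (A j) r0) (d.lp (δ j) (A j) r1) (d.lq (δ j) (A j) s0)
        (d.lq (δ j) (A j) s1) (l j) (m j) ∧ s ≤ θ j (l j) ∧ θ j (l j + m j) ≤ t ∧
      ∀ X, d.lp (δ j) (A j) r0 ≤ X → X < d.lp (δ j) (A j) r1 →
        d.lq (δ j) (A j) s0 ≤ topY d.p d.q (y j) (l j) (m j) X ∧
        topY d.p d.q (y j) (l j) (m j) X ≤ d.lq (δ j) (A j) s1) ∧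
    ∀ x, r0' < x → x < r1' → Reg (fun u => d.P (K u)) x →
      Tendsto (fun j => d.Q (A j) + δ j * topY d.p d.q (y j) (l j) (m j)
        ⌊(x - d.P (A j)) / δ j⌋) atTop (𝓝 (τ x))

theorem topY_eq (p q : Pt → ℤ) (y : ℤ → Pt) (l : ℤ) (m : ℕ) (X : ℤ) :
    topY p q y l m X = tp (fun i => p (y i)) (fun i => q (y i)) l m X := rfl

theorem oneUp {d : Dir} (hd : DirOK d) {K : ℝ → ℂ} (hK : Continuous K) {a b : ℝ}
    {r0 r0' r1' r1 s0 s1 α' α β β' : ℝ} (ha : d.P (K a) < r0) (hb : r1 < d.P (K b)) (hab : a ≤ b)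
    (W : Win (fun x => d.P (K x)) a b r0 r0' r1' r1 α' α β β')
    (hs : ∀ x ∈ Icc a b, s0 < d.Q (K x) ∧ d.Q (K x) < s1) :
    OneUp d K a b r0 r0' r1' r1 s0 s1 (tau (fun x => d.P (K x)) (fun x => d.Q (K x)) α β) := by
  intro δ A hδ hδ0 y g s t θ F hgs hgt
  have hPK : Continuous fun x => d.P (K x) := hd.Pc.comp hK
  have hQK : Continuous fun x => d.Q (K x) := hd.Qc.comp hK
  choose xs hxs using fun j => F.surj j s
  choose xt hxt using fun j => F.surj j t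
  obtain ⟨ε1, hε1, h1⟩ := exists_str (f := fun x => d.Q (K x)) ha hb W
  obtain ⟨ε2, hε2, h2⟩ := exists_q (e := fun x => d.P (K x)) hQK hab hs
  have hrun : ∀ ε : ℝ, 0 < ε → _ := fun ε hε => run_of_follow hd hδ hδ0 F hgs hgt hxs hxt hε
  have hex : ∀ᶠ j in atTop, ∃ i : ℤ × ℤ, IsStr (fun l => d.p (y j l)) (xs j) (xt j)
      ⌊(r0 - d.P (A j)) / δ j⌋ ⌊(r1 - d.P (A j)) / δ j⌋ i.1 i.2 := by
    filter_upwards [hrun ε1 hε1] with j hj
    obtain ⟨i0, i1, h⟩ := h1 hj le_rfl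
    exact ⟨(i0, i1), h⟩
  obtain ⟨I, hI⟩ := Filter.Eventually.choice hex
  refine ⟨fun j => (I j).1, fun j => ((I j).2 - (I j).1).toNat, ?_, ?_⟩
  · filter_upwards [hI, hrun ε2 hε2] with j T R
    have hq := h2 R le_rfl
    have h01 := T.i01
    have hlen : (I j).1 + (((I j).2 - (I j).1).toNat : ℤ) = (I j).2 := by omega
    have hlen' : ((I j).1 : ℝ) + (((I j).2 - (I j).1).toNat : ℝ) = (I j).2 := by
      exact_mod_cast hlen
    have hq' : ∀ i, (I j).1 ≤ i → i ≤ (I j).2 →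
        ⌊(s0 - d.Q (A j)) / δ j⌋ ≤ d.q (y j i) ∧ d.q (y j i) ≤ ⌊(s1 - d.Q (A j)) / δ j⌋ := by
      intro i hi0 hi1
      have e1 : ((I j).1 : ℝ) ≤ i := by exact_mod_cast hi0
      have e2 : (i : ℝ) ≤ (I j).2 := by exact_mod_cast hi1
      exact hq i (T.ge.trans e1) (e2.trans T.le)
    refine ⟨⟨?_, ?_, ?_⟩, ?_, ?_, ?_⟩
    · intro i hi
      exact hq' _ (by omega) (by omega)
    · intro i hi0 hi1
      refine ⟨T.gt0 _ (by omega) (by omega), T.lt1 _ ?_ (by omega)⟩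
      have h3 : ⌊xs j⌋ ≤ (I j).1 := by
        have : (⌊xs j⌋ : ℝ) ≤ (I j).1 := (Int.floor_le _).trans T.ge
        exact_mod_cast this
      omega
    · left
      refine ⟨T.e0, ?_⟩
      rw [hlen]
      exact T.e1
    · rw [← hxs j]
      exact (F.mono j).monotone T.ge
    · rw [← hxt j, hlen']
      exact (F.mono j).monotone T.le
    · intro X hX0 hX1
      rw [topY_eq]
      exact top_mem R.step T hq' hX0 hX1
  · intro x hx0 hx1 hreg
    rw [Metric.tendsto_atTop']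
    intro η hη
    obtain ⟨ε3, hε3, h3⟩ := top_close hPK hQK W hx0 hx1 hreg (show 0 < η / 2 by linarith)
    have := hI.and (hrun ε3 hε3)
    rw [eventually_atTop] at this
    obtain ⟨N, hN⟩ := this
    refine ⟨N, fun j hj => ?_⟩
    obtain ⟨T, R⟩ := hN j hj.le
    have h4 := h3 R le_rfl T
    rw [Real.dist_eq, topY_eq]
    linarith

end Vale.Agent.P155.TLb
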