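import Vale.Agent.P155.U902.TL5

/-!
# P155, literal Q1, block TL, part 6: reversal of time
-/

namespace Vale.Agent.P155.TLb

open Set Filter Topology Vale.Agent.P155 Vale.Agent.P155.Q1

theorem poly_neg (x : ℤ → ℂ) (t : ℝ) : poly (fun l => x (-l)) t = poly x (-t) := by
  have h1 := Int.floor_le t
  have h2 := (Int.lt_floor_add_one t).le
  rw [poly_of_mem (fun l => x (-l)) h1 h2, poly_of_mem x (n := -(⌊t⌋ + 1)) (t := -t)
    (by push_cast; linarith) (by push_cast; linarith)]
  have h3 : -(⌊t⌋ + 1) + 1 = -⌊t⌋ := by ring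
  rw [h3]
  push_cast
  ring

theorem follow_rev {K : ℝ → ℂ} {a b : ℝ} {δ : ℕ → ℝ} {A : ℕ → ℂ} {y : ℕ → ℤ → Pt} {g : ℝ → ℝ}
    {s t : ℝ} {θ : ℕ → ℝ → ℝ} (F : Follow K a b δ A y g s t θ) :
    Follow K a b δ A (fun j l => y j (-l)) (fun x => g (s + t - x)) s t
      (fun j x => s + t - θ j (-x)) where
  adj := fun j l => by
    have h := F.adj j (-(l + 1))
    have h1 : -(l + 1) + 1 = -l := by ring
    rw [h1] at h
    unfold Adj at h ⊢
    rw [abs_sub_comm (y j (-l)).1, abs_sub_comm (y j (-l)).2]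
    exact h
  st := F.st
  gc := F.gc.comp (by fun_prop)
  gmem := fun x hx => F.gmem _ ⟨by linarith [hx.2], by linarith [hx.1]⟩
  gends := by
    have h1 : s + t - s = t := by ring
    have h2 : s + t - t = s := by ring
    rw [h1, h2]
    rcases F.gends with h | h
    · exact Or.inr ⟨h.2, h.1⟩
    · exact Or.inl ⟨h.2, h.1⟩
  cont := fun j => continuous_const.sub ((F.cont j).comp continuous_neg)
  mono := fun j x x' hx => by
    have := F.mono j (neg_lt_neg hx)
    show s + t - θ j (-x) < s + t - θ j (-x')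
    linarith
  surj := fun j u => by
    obtain ⟨x, hx⟩ := F.surj j (s + t - u)
    refine ⟨-x, ?_⟩
    show s + t - θ j (- -x) = u
    rw [neg_neg, hx]
    ring
  close := fun ε hε => by
    filter_upwards [F.close ε hε] with j hj x hx
    have h := hj (-x) ⟨by linarith [hx.2], by linarith [hx.1]⟩
    have h1 := poly_neg (fun l => Q1.pt (δ j) (A j) (y j l)) x
    rw [h1]
    have h2 : s + t - (s + t - θ j (-x)) = θ j (-x) := by ring
    rw [h2]
    exact h

theorem rev_idx {l : ℤ} {m i : ℕ} (hi : i ≤ m) : -(l + ((m - i : ℕ) : ℤ)) = -(l + m) + i := by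
  push_cast [Nat.cast_sub hi]
  ring

theorem strand_rev {p q : Pt → ℤ} {y : ℤ → Pt} {p0 p1 q0 q1 l : ℤ} {m : ℕ}
    (h : StrandY p q (fun i => y (-i)) p0 p1 q0 q1 l m) :
    StrandY p q y p0 p1 q0 q1 (-(l + m)) m where
  qmem := fun i hi => by
    have := h.qmem (m - i) (by omega)
    rw [rev_idx hi] at this
    exact this
  pmem := fun i hi0 hi1 => by
    have := h.pmem (m - i) (by omega) (by omega)
    rw [rev_idx hi1.le] at this
    exact this
  ends := by
    have h1 : -(l + (m : ℤ)) + m = -l := by ring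
    rw [h1]
    rcases h.ends with h | h
    · exact Or.inr ⟨h.2, h.1⟩
    · exact Or.inl ⟨h.2, h.1⟩

theorem topY_rev {p q : Pt → ℤ} {y : ℤ → Pt} {l : ℤ} {m : ℕ} {X : ℤ} :
    topY p q (fun i => y (-i)) l m X = topY p q y (-(l + m)) m X := by
  unfold topY
  congr 1
  ext Y
  constructor
  · rintro ⟨i, hi, h1, h2, h3, h4⟩
    have e1 : -(l + (m : ℤ)) + ((m - 1 - i : ℕ) : ℤ) = -(l + i + 1) := by omega
    have e2 : -(l + (i : ℤ) + 1) + 1 = -(l + i) := by ring
    refine ⟨m - 1 - i, by omega, ?_, ?_, ?_, ?_⟩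
    · rw [e1]
      exact h2
    · rw [e1, e2]
      exact h1
    · rw [e1, e2, min_comm]
      exact h3
    · rw [e1, e2, max_comm]
      exact h4
  · rintro ⟨i, hi, h1, h2, h3, h4⟩
    have e1 : -(l + ((m - 1 - i : ℕ) : ℤ)) = -(l + m) + i + 1 := by omega
    have e2 : -(l + ((m - 1 - i : ℕ) : ℤ) + 1) = -(l + m) + i := by omega
    refine ⟨m - 1 - i, by omega, ?_, ?_, ?_, ?_⟩
    · simp only
      rw [e1]
      exact h2
    · simp only
      rw [e2]
      exact h1
    · simp only
      rw [e1, e2, min_comm]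
      exact h3
    · simp only
      rw [e1, e2, max_comm]
      exact h4

/-- both directions of the time -/
theorem one_of_oneUp {d : Dir} {K : ℝ → ℂ} {a b : ℝ} {r0 r0' r1' r1 s0 s1 : ℝ} {τ : ℝ → ℝ}
    (h : OneUp d K a b r0 r0' r1' r1 s0 s1 τ) : One d K a b r0 r0' r1' r1 s0 s1 τ := by
  intro δ A hδ hδ0 y g s t θ F
  rcases F.gends with ⟨h1, h2⟩ | ⟨h1, h2⟩
  · exact h δ A hδ hδ0 y g s t θ F h1 h2
  · have e1 : s + t - s = t := by ring
    have e2 : s + t - t = s := by ring
    obtain ⟨l, m, hev, hlim⟩ := h δ A hδ hδ0 _ _ s t _ (follow_rev F)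
      (by rw [e1]; exact h2) (by rw [e2]; exact h1)
    refine ⟨fun j => -(l j + m j), m, ?_, ?_⟩
    · filter_upwards [hev] with j hj
      obtain ⟨g1, g2, g3, g4⟩ := hj
      refine ⟨strand_rev g1, ?_, ?_, ?_⟩
      · have : -((l j : ℝ) + (m j : ℝ)) = ((-(l j + (m j : ℤ)) : ℤ) : ℝ) := by push_cast; ring
        rw [this] at g3
        linarith
      · have : -(l j : ℝ) = ((-(l j + (m j : ℤ)) : ℤ) : ℝ) + (m j : ℝ) := by push_cast; ring
        rw [this] at g2
        linarith
      · intro X hX0 hX1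
        have := g4 X hX0 hX1
        rw [topY_rev] at this
        exact this
    · intro x hx0 hx1 hreg
      have := hlim x hx0 hx1 hreg
      simp only [topY_rev] at this
      exact this

end Vale.Agent.P155.TLb
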